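import Mathlib

/-!
P225: reachability.  In a finite-dimensional real Banach algebra let `W` generate a Lie algebra
which is everything.  Then finite products of `exp (t X)`, `X ∈ W`, contain a neighbourhood of `1`
(as the image of a map with surjective differential) and hence every exponential.
-/

namespace Vale.Agent.P225.Alg

open NormedSpace Filter Topology

set_option linter.unusedSectionVars false

/-- A statement about Lie subalgebras gives the generation hypothesis of the reachability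
lemmas. -/
theorem eq_top_of_lieClosed {A : Type*} [Ring A] [Algebra ℝ A] (W : Set A)
    (hlie : ∀ G : Submodule ℝ A, W ⊆ G → (∀ a ∈ G, ∀ b ∈ G, a * b - b * a ∈ G) → G = ⊤)
    (P : Submodule ℝ A) (hW : W ⊆ P) (hP : ∀ Y ∈ W, ∀ Z ∈ P, Y * Z - Z * Y ∈ P) : P = ⊤ := by
  let N : Submodule ℝ A :=
    P ⊓ ⨅ Z ∈ P, P.comap (LinearMap.mulRight ℝ Z - LinearMap.mulLeft ℝ Z)
  have hN : ∀ Y, Y ∈ N ↔ Y ∈ P ∧ ∀ Z ∈ P, Y * Z - Z * Y ∈ P := fun Y => by
    simp [N, Submodule.mem_iInf]
  have htop : N = ⊤ := by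
    refine hlie N (fun Y hY => (hN Y).2 ⟨hW hY, hP Y hY⟩) fun a ha b hb => ?_
    rw [hN] at ha hb ⊢
    refine ⟨ha.2 b hb.1, fun Z hZ => ?_⟩
    have := P.sub_mem (ha.2 _ (hb.2 Z hZ)) (hb.2 _ (ha.2 Z hZ))
    convert this using 1
    simp only [sub_mul, mul_sub, mul_assoc]
    abel
  exact eq_top_iff.2 fun Y _ => ((hN Y).1 (htop ▸ Submodule.mem_top)).1

variable {A : Type*} [NormedRing A] [NormedAlgebra ℝ A] [FiniteDimensional ℝ A]

/-- The monoid of finite products of `exp (t X)`, `X ∈ W`. -/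
noncomputable def expMonoid (W : Set A) : Submonoid A :=
  Submonoid.closure {g | ∃ X ∈ W, ∃ t : ℝ, g = exp (t • X)}

theorem exp_mem_expMonoid {W : Set A} {X : A} (hX : X ∈ W) (t : ℝ) :
    exp (t • X) ∈ expMonoid W :=
  Submonoid.subset_closure ⟨X, hX, t, rfl⟩

/-- A conjugate of a generator by elements of the monoid. -/
structure Conj (W : Set A) where
  /-- conjugating element -/
  g : Aˣ
  /-- generator -/
  X : A
  mem : (g : A) ∈ expMonoid W
  inv_mem : ((g⁻¹ : Aˣ) : A) ∈ expMonoid W
  gen : X ∈ W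

/-- The conjugated generator. -/
def Conj.val {W : Set A} (c : Conj W) : A := c.g * c.X * ((c.g⁻¹ : Aˣ) : A)

theorem exp_smul_val_mem {W : Set A} (c : Conj W) (t : ℝ) : exp (t • c.val) ∈ expMonoid W := by
  have h : t • c.val = (c.g : A) * (t • c.X) * ((c.g⁻¹ : Aˣ) : A) := by
    simp [Conj.val]
  have : CompleteSpace A := FiniteDimensional.complete ℝ A
  let : NormedAlgebra ℚ A := NormedAlgebra.restrictScalars ℚ ℝ A
  rw [h, exp_units_conj]
  exact mul_mem (mul_mem c.mem (exp_mem_expMonoid c.gen t)) c.inv_mem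

/-- The exponential as a unit. -/
noncomputable def expUnit (Y : A) (t : ℝ) : Aˣ :=
  haveI : CompleteSpace A := FiniteDimensional.complete ℝ A
  letI : NormedAlgebra ℚ A := NormedAlgebra.restrictScalars ℚ ℝ A
  { val := exp (t • Y)
    inv := exp ((-t) • Y)
    val_inv := by
      rw [← exp_add_of_commute ((Commute.refl Y).smul_left t |>.smul_right (-t)), ← add_smul,
        add_neg_cancel, zero_smul, exp_zero]
    inv_val := by
      rw [← exp_add_of_commute ((Commute.refl Y).smul_left (-t) |>.smul_right t), ← add_smul,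
        neg_add_cancel, zero_smul, exp_zero] }

/-- The span of the conjugated generators is closed under brackets with the generators. -/
theorem bracket_mem_conj_span (W : Set A) {Y : A} (hY : Y ∈ W) {Z : A}
    (hZ : Z ∈ Submodule.span ℝ (Set.range fun c : Conj W => c.val)) :
    Y * Z - Z * Y ∈ Submodule.span ℝ (Set.range fun c : Conj W => c.val) := by
  have : CompleteSpace A := FiniteDimensional.complete ℝ A
  set P := Submodule.span ℝ (Set.range fun c : Conj W => c.val)
  have hconj : ∀ t : ℝ, exp (t • Y) * Z * exp (t • (-Y)) ∈ P := by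
    intro t
    refine (Submodule.mem_comap (f := (LinearMap.mulRight ℝ (exp (t • (-Y)))).comp
      (LinearMap.mulLeft ℝ (exp (t • Y))))).1 (Submodule.span_le.2 ?_ hZ)
    rintro _ ⟨c, rfl⟩
    have e : t • (-Y) = (-t) • Y := by rw [smul_neg, neg_smul]
    refine Submodule.subset_span ⟨⟨expUnit Y t * c.g, c.X, ?_, ?_, c.gen⟩, ?_⟩
    · exact mul_mem (exp_mem_expMonoid hY t) c.mem
    · rw [mul_inv_rev]
      exact mul_mem c.inv_mem (exp_mem_expMonoid hY (-t))
    · simp only [Conj.val, LinearMap.comp_apply, LinearMap.mulRight_apply, LinearMap.mulLeft_apply,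
        mul_inv_rev, Units.val_mul, e, mul_assoc]
      rfl
  have hderiv : HasDerivAt (fun t : ℝ => exp (t • Y) * Z * exp (t • (-Y))) (Y * Z - Z * Y) 0 := by
    have h1 : HasDerivAt (fun t : ℝ => exp (t • Y)) Y 0 := by
      simpa using hasDerivAt_exp_smul_const Y (0 : ℝ)
    have h2 : HasDerivAt (fun t : ℝ => exp (t • (-Y))) (-Y) 0 := by
      simpa using hasDerivAt_exp_smul_const (-Y) (0 : ℝ)
    simpa [sub_eq_add_neg] using (h1.mul_const Z).fun_mul h2
  refine IsClosed.mem_of_tendsto P.closed_of_finiteDimensional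
    (hderiv.tendsto_slope) (Filter.Eventually.of_forall fun t => ?_)
  rw [SetLike.mem_coe, slope_def_module]
  exact P.smul_mem _ (P.sub_mem (hconj t) (hconj 0))

/-- The conjugated generators span everything as soon as the generators generate it as a Lie
algebra. -/
theorem conj_span_eq_top (W : Set A)
    (hgen : ∀ P : Submodule ℝ A, W ⊆ P → (∀ Y ∈ W, ∀ Z ∈ P, Y * Z - Z * Y ∈ P) → P = ⊤) :
    Submodule.span ℝ (Set.range fun c : Conj W => c.val) = ⊤ := by
  refine hgen _ (fun X hX => Submodule.subset_span ⟨⟨1, X, ?_, ?_, hX⟩, ?_⟩)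
    fun Y hY Z hZ => bracket_mem_conj_span W hY hZ
  · simp [Units.val_one, (expMonoid W).one_mem]
  · simp [(expMonoid W).one_mem]
  · simp [Conj.val]

/-- The differential at zero of a product of one-parameter groups. -/
theorem hasStrictFDerivAt_prod_exp : ∀ {d : ℕ} (Z : Fin d → A),
    HasStrictFDerivAt (fun t : Fin d → ℝ => (List.ofFn fun i => exp (t i • Z i)).prod)
      (∑ i, (ContinuousLinearMap.proj i).smulRight (Z i) : (Fin d → ℝ) →L[ℝ] A) 0 := by
  intro d
  induction d with
  | zero =>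
    intro Z
    simpa using hasStrictFDerivAt_const (1 : A) (0 : Fin 0 → ℝ)
  | succ d ih =>
    intro Z
    have : CompleteSpace A := FiniteDimensional.complete ℝ A
    have hhead : HasStrictFDerivAt (fun t : Fin (d + 1) → ℝ => exp (t 0 • Z 0))
        ((ContinuousLinearMap.proj 0).smulRight (Z 0) : (Fin (d + 1) → ℝ) →L[ℝ] A) 0 := by
      have h1 : HasStrictDerivAt (fun s : ℝ => exp (s • Z 0)) (Z 0) 0 := by
        simpa using hasStrictDerivAt_exp_smul_const (Z 0) (0 : ℝ)
      have h2 := h1.hasStrictFDerivAt.comp (0 : Fin (d + 1) → ℝ)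
        (hasStrictFDerivAt_apply (𝕜 := ℝ) (F' := fun _ : Fin (d + 1) => ℝ) 0 0)
      refine h2.congr_fderiv ?_
      ext t
      simp
    have htail : HasStrictFDerivAt
        (fun t : Fin (d + 1) → ℝ => (List.ofFn fun i => exp (t i.succ • Z i.succ)).prod)
        (∑ i : Fin d, (ContinuousLinearMap.proj i.succ).smulRight (Z i.succ) :
          (Fin (d + 1) → ℝ) →L[ℝ] A) 0 := by
      have h := (ih (fun i => Z i.succ)).comp (0 : Fin (d + 1) → ℝ)
        (ContinuousLinearMap.pi fun i => ContinuousLinearMap.proj (Fin.succ i) :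
          (Fin (d + 1) → ℝ) →L[ℝ] Fin d → ℝ).hasStrictFDerivAt
      refine h.congr_fderiv ?_
      ext t
      simp
    have h := hhead.fun_mul' htail
    simp only [List.ofFn_succ, List.prod_cons]
    refine h.congr_fderiv ?_
    ext t
    simp [Fin.sum_univ_succ, List.ofFn_const, add_comm]

/-- Products of exponentials of generators reach a neighbourhood of `1` submersively. -/
theorem exists_submersive_word (W : Set A)
    (hgen : ∀ P : Submodule ℝ A, W ⊆ P → (∀ Y ∈ W, ∀ Z ∈ P, Y * Z - Z * Y ∈ P) → P = ⊤) :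
    ∃ (d : ℕ) (c : Fin d → Conj W) (L : (Fin d → ℝ) →L[ℝ] A), Function.Surjective L ∧
      HasStrictFDerivAt (fun t : Fin d → ℝ => (List.ofFn fun i => exp (t i • (c i).val)).prod) L 0
      ∧ (∀ t : Fin d → ℝ, (List.ofFn fun i => exp (t i • (c i).val)).prod ∈ expMonoid W) := by
  have htop := conj_span_eq_top W hgen
  obtain ⟨s', hs'⟩ : ∃ s' : Finset (Conj W), Submodule.span ℝ ((fun c : Conj W => c.val) '' s') = ⊤ := by
    classical
    obtain ⟨f, hf⟩ := (Submodule.fg_span_iff_fg_span_finset_subset _).1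
      (IsNoetherian.noetherian (Submodule.span ℝ (Set.range fun c : Conj W => c.val)))
    choose pre hpre using hf.1
    refine ⟨f.attach.image fun x => pre x.2, ?_⟩
    rw [← htop, hf.2]
    congr 1
    ext x
    constructor
    · rintro ⟨c, hc, rfl⟩
      obtain ⟨y, -, rfl⟩ := Finset.mem_image.1 hc
      rw [hpre]
      exact y.2
    · intro hx
      exact ⟨pre hx, Finset.mem_image.2 ⟨⟨x, hx⟩, Finset.mem_attach _ _, rfl⟩, hpre hx⟩
  let e := s'.equivFin.symm
  refine ⟨s'.card, fun i => e i, _, ?_, hasStrictFDerivAt_prod_exp _, fun t => ?_⟩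
  · rw [← ContinuousLinearMap.coe_coe, ← LinearMap.range_eq_top, eq_top_iff, ← hs',
      Submodule.span_le]
    rintro _ ⟨c, hc, rfl⟩
    classical
    refine ⟨Pi.single (e.symm ⟨c, hc⟩) 1, ?_⟩
    simp [Pi.single_apply, e]
  · refine (expMonoid W).list_prod_mem fun x hx => ?_
    obtain ⟨i, rfl⟩ := List.mem_ofFn.1 hx
    exact exp_smul_val_mem _ _

/-- Every exponential is a finite product of exponentials of generators. -/
theorem exp_mem_expMonoid_of_gen (W : Set A)
    (hgen : ∀ P : Submodule ℝ A, W ⊆ P → (∀ Y ∈ W, ∀ Z ∈ P, Y * Z - Z * Y ∈ P) → P = ⊤) (Z : A) :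
    exp Z ∈ expMonoid W := by
  have : CompleteSpace A := FiniteDimensional.complete ℝ A
  let : NormedAlgebra ℚ A := NormedAlgebra.restrictScalars ℚ ℝ A
  obtain ⟨d, c, L, hL, hder, hmem⟩ := exists_submersive_word W hgen
  have hnhds : ((expMonoid W : Submonoid A) : Set A) ∈ 𝓝 (1 : A) := by
    have hmap := hder.map_nhds_eq_of_surj (LinearMap.range_eq_top.2 hL)
    simp only [Pi.zero_apply, zero_smul, exp_zero, List.ofFn_const, List.prod_replicate,
      one_pow] at hmap
    rw [← hmap, Filter.mem_map]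
    exact Filter.univ_mem' hmem
  have htend : Tendsto (fun N : ℕ => exp (((N : ℝ) + 1)⁻¹ • Z)) atTop (𝓝 1) := by
    have hc : Continuous fun s : ℝ => exp (s • Z) :=
      continuous_iff_continuousAt.2 fun s =>
        (hasStrictDerivAt_exp_smul_const (𝕂 := ℝ) Z s).hasDerivAt.continuousAt
    have h0 := (hc.tendsto 0).comp ((tendsto_one_div_add_atTop_nhds_zero_nat).congr fun N => by
      rw [one_div])
    simpa [Function.comp_def] using h0
  obtain ⟨N, hN⟩ := (htend.eventually hnhds).exists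
  have e : Z = (N + 1) • (((N : ℝ) + 1)⁻¹ • Z) := by
    rw [← Nat.cast_smul_eq_nsmul ℝ, Nat.cast_add, Nat.cast_one, smul_smul,
      mul_inv_cancel₀ (by positivity), one_smul]
  rw [e, exp_nsmul]
  exact pow_mem hN _

/-- Around any product of exponentials of generators the word map can be made submersive. -/
theorem exists_submersive_word_at (W : Set A)
    (hgen : ∀ P : Submodule ℝ A, W ⊆ P → (∀ Y ∈ W, ∀ Z ∈ P, Y * Z - Z * Y ∈ P) → P = ⊤)
    (g : Aˣ) (hg : (g : A) ∈ expMonoid W) :
    ∃ (d : ℕ) (c : Fin d → Conj W) (L : (Fin d → ℝ) →L[ℝ] A), Function.Surjective L ∧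
      HasStrictFDerivAt
        (fun t : Fin d → ℝ => (g : A) * (List.ofFn fun i => exp (t i • (c i).val)).prod) L 0
      ∧ (∀ t : Fin d → ℝ,
        (g : A) * (List.ofFn fun i => exp (t i • (c i).val)).prod ∈ expMonoid W) := by
  obtain ⟨d, c, L, hL, hder, hmem⟩ := exists_submersive_word W hgen
  refine ⟨d, c, (g : A) • L, fun Z => ?_, hder.const_mul (g : A), fun t => mul_mem hg (hmem t)⟩
  obtain ⟨t, ht⟩ := hL (((g⁻¹ : Aˣ) : A) * Z)
  exact ⟨t, by simp [ht]⟩

end Vale.Agent.P225.Alg
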