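import Vale.Agent.P225.Alg.SpinInst
import Vale.Agent.P225.Alg.Reach

/-!
P225: from the spin control lemma to the generation hypothesis of reachability, for the real level
matrices of one junction.  `Q`, `R` change a real basis of each level into the spin basis.
-/

namespace Vale.Agent.P225.Alg

open Matrix
open scoped Kronecker

set_option linter.unusedSectionVars false

variable {ι : Type*} [Fintype ι] [DecidableEq ι]

/-- The spin index of the level `(a L, b L)`. -/
abbrev SpinIdx (a b : ι → ℕ) (L : ι) : Type :=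
  (Fin (a L + 1) × Fin (a L + 1)) × (Fin (b L + 1) × Fin (b L + 1))

variable {a b : ι → ℕ} {k : ι → Type*} [∀ L, Fintype (k L)] [∀ L, DecidableEq (k L)]

/-- A real family in spin coordinates. -/
noncomputable def toSpin (Q : ∀ L, Matrix (SpinIdx a b L) (k L) ℂ)
    (R : ∀ L, Matrix (k L) (SpinIdx a b L) ℂ) (M : Fam ℝ k) : Fam ℂ (SpinIdx a b) :=
  fun L => Q L * (M L).map (fun x : ℝ => (x : ℂ)) * R L

/-- The level matrices of a junction generate everything: with one scalar for each
level in `W`, the only bracket-stable space containing `W` is the whole space. -/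
theorem junction_generates (ha : ∀ L, 1 ≤ a L) (hb : ∀ L, 1 ≤ b L)
    (Q : ∀ L, Matrix (SpinIdx a b L) (k L) ℂ) (R : ∀ L, Matrix (k L) (SpinIdx a b L) ℂ)
    (hQR : ∀ L, Q L * R L = 1) (hRQ : ∀ L, R L * Q L = 1) (κ : ι → ℂ) (hκ : ∀ L, κ L ≠ 0)
    (hsep : Function.Injective fun L =>
      (κ L ^ 2 * ((b L : ℂ) * (b L + 2)), κ L ^ 2 * ((a L : ℂ) * (a L + 2))))
    (W : Set (Fam ℝ k))
    (hgen : ∀ p q, gk κ (gens spinTop spinF spinE a p) (gens spinTop spinF spinE b q)
      ∈ Submodule.span ℂ (toSpin Q R '' W))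
    (hscal : ∀ L, (Pi.single L 1 : Fam ℝ k) ∈ Submodule.span ℝ W)
    (P : Submodule ℝ (Fam ℝ k)) (hW : W ⊆ P)
    (hP : ∀ Y ∈ W, ∀ Z ∈ P, Y * Z - Z * Y ∈ P) : P = ⊤ := by
  refine eq_top_of_lieClosed W (fun G hWG hG => ?_) P hW hP
  set GC := Submodule.span ℂ (toSpin Q R '' (G : Set (Fam ℝ k))) with hGC
  have hmul : ∀ (M N : Fam ℝ k) (L : ι),
      toSpin Q R (M * N) L = toSpin Q R M L * toSpin Q R N L := by
    intro M N L
    have e : ((M L * N L).map fun x : ℝ => (x : ℂ))
        = (M L).map (fun x : ℝ => (x : ℂ)) * (N L).map (fun x : ℝ => (x : ℂ)) :=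
      Matrix.map_mul (f := Complex.ofRealHom)
    simp only [toSpin, Pi.mul_apply, e, Matrix.mul_assoc]
    rw [← Matrix.mul_assoc (R L) (Q L), hRQ, Matrix.one_mul]
  have hsub : ∀ M N : Fam ℝ k, toSpin Q R (M - N) = toSpin Q R M - toSpin Q R N := by
    intro M N
    funext L
    have e : ((M L - N L).map fun x : ℝ => (x : ℂ))
        = (M L).map (fun x : ℝ => (x : ℂ)) - (N L).map (fun x : ℝ => (x : ℂ)) := by
      ext i j; simp
    simp [toSpin, e, Matrix.sub_mul, Matrix.mul_sub]
  have hlie : FamLieClosed GC := by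
    intro x hx y hy
    induction hx using Submodule.span_induction with
    | mem x hx =>
      induction hy using Submodule.span_induction with
      | mem y hy =>
        obtain ⟨M, hM, rfl⟩ := hx
        obtain ⟨N, hN, rfl⟩ := hy
        refine Submodule.subset_span ⟨M * N - N * M, hG M hM N hN, ?_⟩
        rw [hsub]
        funext L
        simp [hmul]
      | zero => convert GC.zero_mem using 1; funext L; simp
      | add u v _ _ hu hv =>
        convert GC.add_mem hu hv using 1
        funext L; simp [Matrix.mul_add, Matrix.add_mul]; abel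
      | smul r u _ hu =>
        convert GC.smul_mem r hu using 1
        funext L; simp [smul_sub]
    | zero => convert GC.zero_mem using 1; funext L; simp
    | add u v _ _ hu hv =>
      convert GC.add_mem hu hv using 1
      funext L; simp [Matrix.mul_add, Matrix.add_mul]; abel
    | smul r u _ hu =>
      convert GC.smul_mem r hu using 1
      funext L; simp [smul_sub]
  have hgen' : ∀ p q,
      gk κ (gens spinTop spinF spinE a p) (gens spinTop spinF spinE b q) ∈ GC := fun p q =>
    Submodule.span_mono (Set.image_mono hWG) (hgen p q)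
  have hone : ∀ L, (Pi.single L 1 : Fam ℂ (SpinIdx a b)) ∈ GC := by
    intro L
    refine Submodule.subset_span ⟨Pi.single L 1, Submodule.span_le.2 hWG (hscal L), ?_⟩
    funext L'
    rcases eq_or_ne L' L with rfl | hne
    · have e : ((1 : Matrix (k L') (k L') ℝ).map fun x : ℝ => (x : ℂ)) = 1 := by
        ext i j; simp [Matrix.one_apply, apply_ite Complex.ofReal]
      simp [toSpin, e, hQR]
    · simp [toSpin, Pi.single_eq_of_ne hne]
  have htop : ∀ X : Fam ℂ (SpinIdx a b), X ∈ GC := by
    intro X
    let c : ι → ℂ := fun L => (X L).trace / (Fintype.card (SpinIdx a b L) : ℂ)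
    have hsplit : X = (X - ∑ L, c L • (Pi.single L 1 : Fam ℂ (SpinIdx a b)))
        + ∑ L, c L • (Pi.single L 1 : Fam ℂ (SpinIdx a b)) := by abel
    rw [hsplit]
    refine GC.add_mem (spin_traceless_mem spin_triple spinTop_zero ha hb κ hκ hsep GC hlie hgen' _
      fun L => ?_) (GC.sum_mem fun L _ => GC.smul_mem _ (hone L))
    have : (Fintype.card (SpinIdx a b L) : ℂ) ≠ 0 := by exact_mod_cast Fintype.card_ne_zero
    rw [Pi.sub_apply, Finset.sum_apply, Finset.sum_eq_single L]
    · simp only [Pi.smul_apply, Pi.single_eq_same, Matrix.trace_sub, Matrix.trace_smul,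
        Matrix.trace_one, smul_eq_mul, c]
      field_simp
      ring
    · intro L' _ hne
      simp [Pi.single_eq_of_ne hne.symm]
    · simp
  let back : Fam ℂ (SpinIdx a b) →ₗ[ℂ] ((Σ L, k L × k L) → ℂ) :=
    { toFun := fun X q => (R q.1 * X q.1 * Q q.1) q.2.1 q.2.2
      map_add' := fun X Y => by funext q; simp [Matrix.mul_add, Matrix.add_mul]
      map_smul' := fun r X => by funext q; simp }
  let flat : Fam ℝ k →ₗ[ℝ] ((Σ L, k L × k L) → ℝ) :=
    { toFun := fun M q => M q.1 q.2.1 q.2.2
      map_add' := fun M N => rfl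
      map_smul' := fun r M => rfl }
  have hback : ∀ M : Fam ℝ k, back (toSpin Q R M) = fun q => ((flat M q : ℝ) : ℂ) := by
    intro M
    funext q
    simp only [back, flat, toSpin, LinearMap.coe_mk, AddHom.coe_mk, Matrix.mul_assoc, hRQ,
      Matrix.mul_one]
    rw [← Matrix.mul_assoc, hRQ, Matrix.one_mul]
    rfl
  rw [eq_top_iff]
  intro M _
  have hmem : (fun q => ((flat M q : ℝ) : ℂ)) ∈ Submodule.span ℂ
      ((fun w : (Σ L, k L × k L) → ℝ => fun q => (w q : ℂ)) '' (G.map flat : Set _)) := by
    rw [← hback]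
    refine (Submodule.mem_comap (f := back)).1 ((Submodule.span_le.2 ?_) (htop (toSpin Q R M)))
    rintro _ ⟨N, hN, rfl⟩
    exact Submodule.subset_span ⟨flat N, ⟨N, hN, rfl⟩, (hback N).symm⟩
  obtain ⟨N, hN, e⟩ := mem_of_mem_complex_span _ hmem
  have : N = M := funext fun L => Matrix.ext fun i j => congrFun e ⟨L, i, j⟩
  exact this ▸ hN

end Vale.Agent.P225.Alg
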