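import Mathlib

/-!
P225: the control lemma on one junction level.  A space of matrices on `m × n` which is closed
under commutators and contains all `X ⊗ₖ Y`, for `X`, `Y` in perfect irreducible spaces, contains
every matrix of trace zero.
-/

namespace Vale.Agent.P225.Alg

open Matrix
open scoped Kronecker

set_option linter.unusedSectionVars false

variable {K : Type*} [Field K] {m n : Type*} [Fintype m] [DecidableEq m] [Fintype n] [DecidableEq n]

/-- Closed under commutators. -/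
def IsLieClosed (G : Submodule K (Matrix m m K)) : Prop :=
  ∀ a ∈ G, ∀ b ∈ G, a * b - b * a ∈ G

/-- Spanned by its own commutators. -/
def IsPerfect (S : Submodule K (Matrix m m K)) : Prop :=
  S ≤ Submodule.span K {c | ∃ a ∈ S, ∃ b ∈ S, c = a * b - b * a}

/-- The Kronecker product as a bilinear map. -/
def kron : Matrix m m K →ₗ[K] Matrix n n K →ₗ[K] Matrix (m × n) (m × n) K :=
  kroneckerBilinear

@[simp] theorem kron_apply (a : Matrix m m K) (b : Matrix n n K) : kron a b = a ⊗ₖ b := rfl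

/-- A nonzero subspace stable under a generating set from both sides is everything. -/
theorem eq_top_of_stable (A S : Submodule K (Matrix m m K))
    (hS : Algebra.adjoin K (S : Set (Matrix m m K)) = ⊤)
    (hl : ∀ x ∈ S, ∀ a ∈ A, x * a ∈ A) (hr : ∀ x ∈ S, ∀ a ∈ A, a * x ∈ A)
    {a₀ : Matrix m m K} (ha₀ : a₀ ∈ A) (hne : a₀ ≠ 0) : A = ⊤ := by
  have key : ∀ x : Matrix m m K, ∀ a ∈ A, x * a ∈ A ∧ a * x ∈ A := by
    intro x
    have hx : x ∈ Algebra.adjoin K (S : Set (Matrix m m K)) := hS ▸ Algebra.mem_top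
    induction hx using Algebra.adjoin_induction with
    | mem x hx => exact fun a ha => ⟨hl x hx a ha, hr x hx a ha⟩
    | algebraMap r =>
        intro a ha
        rw [← Algebra.commutes, ← Algebra.smul_def]
        exact ⟨A.smul_mem r ha, A.smul_mem r ha⟩
    | add x y _ _ hx hy =>
        intro a ha
        exact ⟨by rw [add_mul]; exact A.add_mem (hx a ha).1 (hy a ha).1,
          by rw [mul_add]; exact A.add_mem (hx a ha).2 (hy a ha).2⟩
    | mul x y _ _ hx hy =>
        intro a ha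
        exact ⟨by rw [mul_assoc]; exact (hx _ (hy a ha).1).1,
          by rw [← mul_assoc]; exact (hy _ (hx a ha).2).2⟩
  obtain ⟨p, q, hpq⟩ : ∃ p q, a₀ p q ≠ 0 := by
    by_contra h
    push Not at h
    exact hne (Matrix.ext fun p q => h p q)
  rw [eq_top_iff]
  intro M _
  rw [Matrix.matrix_eq_sum_single M]
  refine A.sum_mem fun i _ => A.sum_mem fun j _ => ?_
  have h1 := (key (Matrix.single i p 1) _ ((key (Matrix.single q j 1) a₀ ha₀).2)).1
  rw [← mul_assoc, Matrix.single_mul_mul_single, one_mul, mul_one] at h1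
  have h2 := A.smul_mem (M i j / a₀ p q) h1
  rwa [Matrix.smul_single, smul_eq_mul, div_mul_cancel₀ _ hpq] at h2

variable {G : Submodule K (Matrix (m × n) (m × n) K)}
  {Sx : Submodule K (Matrix m m K)} {Sy : Submodule K (Matrix n n K)}

/-- The first factor alone lies in `G`. -/
theorem kronecker_one_mem (hG : IsLieClosed G) (hgen : ∀ x ∈ Sx, ∀ y ∈ Sy, x ⊗ₖ y ∈ G)
    (hx : IsPerfect Sx) {ι : Type*} (s : Finset ι) (Y : ι → Matrix n n K)
    (hY : ∀ k ∈ s, Y k ∈ Sy) {c : K} (hc : c ≠ 0) (hcas : ∑ k ∈ s, Y k * Y k = c • 1) :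
    ∀ x ∈ Sx, x ⊗ₖ (1 : Matrix n n K) ∈ G := by
  intro x hxS
  have hP : x ∈ G.comap ((kron (m := m)).flip (1 : Matrix n n K)) := by
    refine Submodule.span_le.2 ?_ (hx hxS)
    rintro _ ⟨a, ha, b, hb, rfl⟩
    have h1 : (a * b - b * a) ⊗ₖ (∑ k ∈ s, Y k * Y k) ∈ G := by
      rw [show (a * b - b * a) ⊗ₖ (∑ k ∈ s, Y k * Y k)
          = ∑ k ∈ s, (a * b - b * a) ⊗ₖ (Y k * Y k) from
          map_sum (kron (a * b - b * a)) _ _]
      refine G.sum_mem fun k hk => ?_
      have := hG _ (hgen a ha _ (hY k hk)) _ (hgen b hb _ (hY k hk))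
      rw [← mul_kronecker_mul, ← mul_kronecker_mul] at this
      rwa [← kron_apply, map_sub, LinearMap.sub_apply, kron_apply, kron_apply]
    rw [hcas, kronecker_smul] at h1
    exact (G.smul_mem_iff hc).1 h1
  exact hP

/-- Every matrix in the first factor can be paired with every element of `Sy`. -/
theorem kronecker_mem_of_perfect (hG : IsLieClosed G)
    (hgen : ∀ x ∈ Sx, ∀ y ∈ Sy, x ⊗ₖ y ∈ G) (h2 : (2 : K) ≠ 0) (hy : IsPerfect Sy)
    (hSx : Algebra.adjoin K (Sx : Set (Matrix m m K)) = ⊤)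
    (hone : ∀ x ∈ Sx, x ⊗ₖ (1 : Matrix n n K) ∈ G) {x₀ : Matrix m m K} (hx₀ : x₀ ∈ Sx)
    (hne : x₀ ≠ 0) : ∀ a : Matrix m m K, ∀ y ∈ Sy, a ⊗ₖ y ∈ G := by
  let A : Submodule K (Matrix m m K) :=
    ⨅ y ∈ Sy, G.comap ((kron (m := m)).flip y)
  have hA : ∀ a, a ∈ A ↔ ∀ y ∈ Sy, a ⊗ₖ y ∈ G := fun a => by
    simp only [A, Submodule.mem_iInf, Submodule.mem_comap]
    rfl
  have hjordan : ∀ x ∈ Sx, ∀ a ∈ A, x * a + a * x ∈ A := by
    intro x hx a ha
    rw [hA] at ha ⊢
    intro y hyS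
    have : y ∈ G.comap (kron (n := n) (x * a + a * x)) := by
      refine Submodule.span_le.2 ?_ (hy hyS)
      rintro _ ⟨y₁, h₁, y₂, h₂, rfl⟩
      have e1 := hG _ (hgen x hx y₁ h₁) _ (ha y₂ h₂)
      have e2 := hG _ (ha y₁ h₁) _ (hgen x hx y₂ h₂)
      rw [← mul_kronecker_mul, ← mul_kronecker_mul] at e1 e2
      have e := G.add_mem e1 e2
      show (x * a + a * x) ⊗ₖ (y₁ * y₂ - y₂ * y₁) ∈ G
      convert e using 1
      simp only [← kron_apply, map_sub, map_add, LinearMap.add_apply]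
      abel
    exact this
  have hbracket : ∀ x ∈ Sx, ∀ a ∈ A, x * a - a * x ∈ A := by
    intro x hx a ha
    rw [hA] at ha ⊢
    intro y hyS
    have e := hG _ (hone x hx) _ (ha y hyS)
    rw [← mul_kronecker_mul, ← mul_kronecker_mul, one_mul, mul_one] at e
    rwa [← kron_apply, map_sub, LinearMap.sub_apply]
  have hl : ∀ x ∈ Sx, ∀ a ∈ A, x * a ∈ A := by
    intro x hx a ha
    have := A.add_mem (hjordan x hx a ha) (hbracket x hx a ha)
    rw [show x * a + a * x + (x * a - a * x) = (2 : K) • (x * a) by rw [two_smul]; abel] at this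
    exact (A.smul_mem_iff h2).1 this
  have hr : ∀ x ∈ Sx, ∀ a ∈ A, a * x ∈ A := by
    intro x hx a ha
    have := A.sub_mem (hjordan x hx a ha) (hl x hx a ha)
    rwa [add_sub_cancel_left] at this
  have htop := eq_top_of_stable A Sx hSx hl hr ((hA x₀).2 fun y hy => hgen x₀ hx₀ y hy) hne
  exact fun a => (hA a).1 (htop ▸ Submodule.mem_top)

/-- The control lemma on one level. -/
theorem traceless_mem_of_kronecker (hG : IsLieClosed G)
    (hgen : ∀ x ∈ Sx, ∀ y ∈ Sy, x ⊗ₖ y ∈ G) (h2 : (2 : K) ≠ 0)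
    (hx : IsPerfect Sx) (hy : IsPerfect Sy)
    (hSx : Algebra.adjoin K (Sx : Set (Matrix m m K)) = ⊤)
    (hSy : Algebra.adjoin K (Sy : Set (Matrix n n K)) = ⊤)
    {ι : Type*} (s : Finset ι) (Y : ι → Matrix n n K) (hY : ∀ k ∈ s, Y k ∈ Sy)
    {c : K} (hc : c ≠ 0) (hcas : ∑ k ∈ s, Y k * Y k = c • 1)
    {x₀ : Matrix m m K} (hx₀ : x₀ ∈ Sx) (hx0 : x₀ ≠ 0)
    {y₀ : Matrix n n K} (hy₀ : y₀ ∈ Sy) (hy0 : y₀ ≠ 0) (hcard : 3 ≤ Fintype.card m)
    {M : Matrix (m × n) (m × n) K} (hM : M.trace = 0) : M ∈ G := by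
  have hfirst := kronecker_mem_of_perfect hG hgen h2 hy hSx
    (kronecker_one_mem hG hgen hx s Y hY hc hcas) hx₀ hx0
  have third : ∀ i j : m, ∃ k, k ≠ i ∧ k ≠ j := by
    intro i j
    obtain ⟨k, -, hk⟩ := Finset.exists_mem_notMem_of_card_lt_card
      (s := {i, j}) (t := (Finset.univ : Finset m))
      ((Finset.card_le_two).trans_lt (by rw [Finset.card_univ]; omega))
    exact ⟨k, by simp_all, by simp_all⟩
  let B : Submodule K (Matrix n n K) :=
    ⨅ (i : m) (j : m) (_ : i ≠ j), G.comap (kron (n := n) (Matrix.single i j (1 : K)))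
  have hB : ∀ b, b ∈ B ↔ ∀ i j : m, i ≠ j → Matrix.single i j (1 : K) ⊗ₖ b ∈ G := fun b => by
    simp only [B, Submodule.mem_iInf, Submodule.mem_comap]
    rfl
  have hprod : ∀ b b' : Matrix n n K, ∀ i k j : m, i ≠ j →
      Matrix.single i k (1 : K) ⊗ₖ b ∈ G → Matrix.single k j (1 : K) ⊗ₖ b' ∈ G →
      Matrix.single i j (1 : K) ⊗ₖ (b * b') ∈ G := by
    intro b b' i k j hij h h'
    have e := hG _ h _ h'
    rwa [← mul_kronecker_mul, ← mul_kronecker_mul, Matrix.single_mul_single_same,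
      Matrix.single_mul_single_of_ne _ _ _ _ hij.symm, one_mul, zero_kronecker, sub_zero] at e
  have hBl : ∀ y ∈ Sy, ∀ b ∈ B, y * b ∈ B := by
    intro y hyS b hb
    rw [hB] at hb ⊢
    intro i j hij
    obtain ⟨k, hki, hkj⟩ := third i j
    exact hprod y b i k j hij (hfirst _ y hyS) (hb k j hkj)
  have hBr : ∀ y ∈ Sy, ∀ b ∈ B, b * y ∈ B := by
    intro y hyS b hb
    rw [hB] at hb ⊢
    intro i j hij
    obtain ⟨k, hki, hkj⟩ := third i j
    exact hprod b y i k j hij (hb i k hki.symm) (hfirst _ y hyS)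
  have hBtop := eq_top_of_stable B Sy hSy hBl hBr ((hB y₀).2 fun i j _ => hfirst _ y₀ hy₀) hy0
  have hoff : ∀ i j : m, i ≠ j → ∀ p q : n, Matrix.single (i, p) (j, q) (1 : K) ∈ G := by
    intro i j hij p q
    have h := (hB (Matrix.single p q 1)).1 (hBtop ▸ Submodule.mem_top) i j hij
    rwa [single_kronecker_single, one_mul] at h
  have hne : ∀ a b : m × n, a ≠ b → Matrix.single a b (1 : K) ∈ G := by
    rintro ⟨i, p⟩ ⟨j, q⟩ hab
    rcases eq_or_ne i j with rfl | hij
    · obtain ⟨k, hki, -⟩ := third i i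
      have e := hG _ (hoff i k hki.symm p p) _ (hoff k i hki p q)
      rwa [Matrix.single_mul_single_same, Matrix.single_mul_single_of_ne _ _ _ _ (Ne.symm hab),
        sub_zero, one_mul] at e
    · exact hoff i j hij p q
  have hdiff : ∀ a b : m × n,
      Matrix.single a a (1 : K) - Matrix.single b b (1 : K) ∈ G := by
    intro a b
    rcases eq_or_ne a b with rfl | hab
    · simp
    · have e := hG _ (hne a b hab) _ (hne b a hab.symm)
      rwa [Matrix.single_mul_single_same, Matrix.single_mul_single_same, one_mul] at e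
  rcases isEmpty_or_nonempty (m × n) with he | ⟨⟨a₀⟩⟩
  · rw [Subsingleton.elim M 0]; exact G.zero_mem
  have hdec : M = ∑ a, ∑ b, (if a = b then M a a • (Matrix.single a a (1 : K)
      - Matrix.single a₀ a₀ 1) else M a b • Matrix.single a b (1 : K)) := by
    conv_lhs => rw [Matrix.matrix_eq_sum_single M]
    rw [← sub_eq_zero, ← Finset.sum_sub_distrib]
    calc ∑ a, ((∑ b, Matrix.single a b (M a b)) - ∑ b, if a = b then M a a • (Matrix.single a a (1 : K)
          - Matrix.single a₀ a₀ 1) else M a b • Matrix.single a b (1 : K))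
        = ∑ a, M a a • Matrix.single a₀ a₀ (1 : K) := Finset.sum_congr rfl fun a _ => by
          rw [← Finset.sum_sub_distrib, Finset.sum_eq_single a]
          · simp [smul_sub, Matrix.smul_single]
          · intro b _ hb
            simp [Ne.symm hb, Matrix.smul_single]
          · simp
      _ = M.trace • Matrix.single a₀ a₀ (1 : K) := by rw [Matrix.trace, Finset.sum_smul]; rfl
      _ = 0 := by rw [hM, zero_smul]
  rw [hdec]
  refine G.sum_mem fun a _ => G.sum_mem fun b _ => ?_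
  split
  · exact G.smul_mem _ (hdiff a a₀)
  · rename_i h
    exact G.smul_mem _ (hne a b h)

end Vale.Agent.P225.Alg
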