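import Mathlib
import Vale.Agent.P225.Alg.Reach

/-!
P225 corrector, section 4: the span of the responses of one class of entries.

States `ι` are grouped by `lev`; on a big level the commutators with the off-diagonal units are
available.  A stable space containing a nonzero matrix without diagonal and without entries
between two small levels contains a rank one matrix supported on entries of the same pairs of
levels.  By duality a stable space which no such rank one matrix annihilates is everything on the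
class.
-/

namespace Vale.Agent.P225.Alg

open Matrix

variable {ι Λ : Type*} [Fintype ι] [DecidableEq ι] (lev : ι → Λ) (big : Λ → Prop)

/-- Stability under commutators with the off-diagonal units of every big level. -/
def LevStable (V : Submodule ℝ (Matrix ι ι ℝ)) : Prop :=
  ∀ i j, i ≠ j → lev i = lev j → big (lev i) → ∀ M ∈ V,
    Matrix.single i j (1 : ℝ) * M - M * Matrix.single i j (1 : ℝ) ∈ V

omit [Fintype ι] in
/-- Entries of a matrix unit. -/
theorem single_one_apply (i j y z : ι) :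
    Matrix.single i j (1 : ℝ) y z = if y = i ∧ z = j then 1 else 0 := by
  simp only [Matrix.single, Matrix.of_apply]
  exact if_congr ⟨fun h => ⟨h.1.symm, h.2.symm⟩, fun h => ⟨h.1.symm, h.2.symm⟩⟩ rfl rfl

theorem single_mul_entry (M : Matrix ι ι ℝ) (i j y z : ι) :
    (Matrix.single i j (1 : ℝ) * M) y z = if y = i then M j z else 0 := by
  by_cases h : y = i
  · subst h; simp
  · rw [if_neg h, Matrix.single_mul_apply_of_ne _ _ _ _ _ h]

theorem mul_single_entry (M : Matrix ι ι ℝ) (i j y z : ι) :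
    (M * Matrix.single i j (1 : ℝ)) y z = if z = j then M y i else 0 := by
  by_cases h : z = j
  · subst h; simp
  · rw [if_neg h, Matrix.mul_single_apply_of_ne _ _ _ _ _ h]

variable {lev big} {V : Submodule ℝ (Matrix ι ι ℝ)}

/-- The commutator with a matrix unit. -/
theorem bracket_entry (M : Matrix ι ι ℝ) (i j y z : ι) :
    (Matrix.single i j (1 : ℝ) * M - M * Matrix.single i j (1 : ℝ)) y z
      = (if y = i then M j z else 0) - (if z = j then M y i else 0) := by
  rw [Matrix.sub_apply, single_mul_entry, mul_single_entry]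

/-- An entry inside a big level gives the opposite matrix unit. -/
theorem LevStable.inside (hV : LevStable lev big V) {c : Matrix ι ι ℝ} (hc : c ∈ V) {i j : ι}
    (hij : i ≠ j) (hl : lev i = lev j) (hb : big (lev i)) :
    vecMulVec (Pi.single i (-2 * c j i)) (Pi.single j (1 : ℝ)) ∈ V := by
  have h := hV i j hij hl hb _ (hV i j hij hl hb c hc)
  convert h using 1
  ext y z
  simp only [bracket_entry, vecMulVec_apply, Pi.single_apply]
  by_cases hy : y = i <;> by_cases hz : z = j <;> simp [hy, hz, hij, hij.symm]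
  all_goals ring

/-- Without entries inside a big level, a row of that level can be moved into a rank one member. -/
theorem LevStable.row (hV : LevStable lev big V) {c : Matrix ι ι ℝ} (hc : c ∈ V) {i j k : ι}
    (hij : i ≠ j) (hki : k ≠ i) (hkj : k ≠ j) (hl : lev i = lev j) (hl' : lev k = lev i)
    (hb : big (lev i)) (h0 : ∀ a b, lev a = lev i → lev b = lev i → c a b = 0) :
    vecMulVec (Pi.single k (1 : ℝ)) (c j) ∈ V := by
  have h := hV k i hki hl' (hl' ▸ hb) _ (hV i j hij hl hb c hc)
  convert h using 1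
  ext y z
  simp only [bracket_entry, vecMulVec_apply, Pi.single_apply]
  have e1 : c i i = 0 := h0 i i rfl rfl
  have e2 : c j k = 0 := h0 j k hl.symm hl'
  have e3 : c k i = 0 := h0 k i hl' rfl
  by_cases hy : y = k <;> by_cases hz : z = i <;> by_cases hy' : y = i <;> by_cases hz' : z = j <;>
    simp_all

/-- The same with a column. -/
theorem LevStable.col (hV : LevStable lev big V) {c : Matrix ι ι ℝ} (hc : c ∈ V) {i j k : ι}
    (hij : i ≠ j) (hki : k ≠ i) (hkj : k ≠ j) (hl : lev i = lev j) (hl' : lev k = lev i)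
    (hb : big (lev i)) (h0 : ∀ a b, lev a = lev i → lev b = lev i → c a b = 0) :
    vecMulVec (fun y => c y i) (Pi.single k (1 : ℝ)) ∈ V := by
  have h := hV j k hkj.symm (hl.symm.trans hl'.symm) (hl ▸ hb) _ (hV i j hij hl hb c hc)
  convert h using 1
  ext y z
  simp only [bracket_entry, vecMulVec_apply, Pi.single_apply]
  have e1 : c j j = 0 := h0 j j hl.symm hl.symm
  have e2 : c k i = 0 := h0 k i hl' rfl
  have e3 : c j k = 0 := h0 j k hl.symm hl'
  by_cases hy : y = j <;> by_cases hz : z = k <;> by_cases hy' : y = i <;> by_cases hz' : z = j <;>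
    simp_all

/-- A stable space with a nonzero member without diagonal and without small-small entries contains
a rank one member, supported on entries of the same pairs of levels. -/
theorem LevStable.exists_rankOne (hV : LevStable lev big V)
    (hcard : ∀ i j, lev i = lev j → big (lev i) → ∃ k, lev k = lev i ∧ k ≠ i ∧ k ≠ j)
    {c : Matrix ι ι ℝ} (hc : c ∈ V) (hne : c ≠ 0) (hdiag : ∀ i, c i i = 0)
    (hsmall : ∀ y z, ¬ big (lev y) → ¬ big (lev z) → c y z = 0) :
    ∃ v u : ι → ℝ, v ≠ 0 ∧ u ≠ 0 ∧ vecMulVec v u ∈ V ∧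
      ∀ y z, v y ≠ 0 → u z ≠ 0 → y ≠ z ∧
        ∃ y' z', c y' z' ≠ 0 ∧ lev y' = lev y ∧ lev z' = lev z := by
  by_cases hA : ∃ i j, i ≠ j ∧ lev i = lev j ∧ big (lev i) ∧ c j i ≠ 0
  · obtain ⟨i, j, hij, hl, hb, hcji⟩ := hA
    refine ⟨_, _, ?_, ?_, hV.inside hc hij hl hb, fun y z hy hz => ?_⟩
    · simp [hcji]
    · simp
    · have hy' : y = i := by by_contra h; exact hy (Pi.single_eq_of_ne h _)
      have hz' : z = j := by by_contra h; exact hz (Pi.single_eq_of_ne h _)
      subst hy' hz'
      exact ⟨hij, z, y, hcji, hl.symm, hl⟩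
  push Not at hA
  have hin : ∀ a b, lev a = lev b → c a b = 0 := by
    intro a b hab
    rcases eq_or_ne a b with rfl | hne'
    · exact hdiag a
    · by_cases hb : big (lev b)
      · exact hA b a hne'.symm hab.symm hb
      · exact hsmall a b (hab ▸ hb) hb
  obtain ⟨a, b, hab⟩ : ∃ a b, c a b ≠ 0 := by
    by_contra h
    push Not at h
    exact hne (Matrix.ext fun a b => h a b)
  by_cases hba : big (lev a)
  · obtain ⟨i, hi, hia, -⟩ := hcard a a rfl hba
    obtain ⟨k, hk, hki, hka⟩ := hcard i a hi (hi ▸ hba)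
    refine ⟨_, _, ?_, fun h => hab (congrFun h b), hV.row hc hia hki hka hi hk (hi ▸ hba)
      (fun x y hx hy => hin x y (hx.trans hy.symm)), fun y z hy hz => ?_⟩
    · simp
    · have hy' : y = k := by by_contra h; exact hy (Pi.single_eq_of_ne h _)
      subst hy'
      refine ⟨fun h => hz ?_, a, z, hz, (hk.trans hi).symm, rfl⟩
      exact hin a z (h ▸ (hk.trans hi).symm)
  · have hbb : big (lev b) := by
      by_contra h
      exact hab (hsmall a b hba h)
    obtain ⟨j, hj, hjb, -⟩ := hcard b b rfl hbb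
    obtain ⟨k, hk, hkb, hkj⟩ := hcard b j hj.symm hbb
    refine ⟨_, _, fun h => hab (congrFun h a), ?_, hV.col hc hjb.symm hkb hkj hj.symm hk hbb
      (fun x y hx hy => hin x y (hx.trans hy.symm)), fun y z hy hz => ?_⟩
    · simp
    · have hz' : z = k := by by_contra h; exact hz (Pi.single_eq_of_ne h _)
      subst hz'
      refine ⟨fun h => hy ?_, y, b, hy, rfl, hk.symm⟩
      exact hin y b (h ▸ hk)

/-- The pairing of entries. -/
def entryPair (c X : Matrix ι ι ℝ) : ℝ := ∑ y, ∑ z, c y z * X y z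

theorem entryPair_bracket (c X : Matrix ι ι ℝ) (i j : ι) :
    entryPair (Matrix.single i j (1 : ℝ) * c - c * Matrix.single i j (1 : ℝ)) X
      = entryPair c (Matrix.single j i (1 : ℝ) * X - X * Matrix.single j i (1 : ℝ)) := by
  simp only [entryPair, bracket_entry, sub_mul, mul_sub, Finset.sum_sub_distrib, ite_mul, zero_mul,
    mul_ite, mul_zero]
  congr 1
  · rw [Finset.sum_comm, Finset.sum_comm (f := fun y z => if y = j then c y z * X i z else 0)]
    simp [Finset.sum_ite_eq']
  · simp [Finset.sum_ite_eq']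

/-- A stable space which no rank one matrix on the class annihilates is everything on the
class. -/
theorem LevStable.class_surjective (hV : LevStable lev big V)
    (hcard : ∀ i j, lev i = lev j → big (lev i) → ∃ k, lev k = lev i ∧ k ≠ i ∧ k ≠ j)
    (Cls : ι → ι → Prop) (hne : ∀ y z, Cls y z → y ≠ z)
    (hbig : ∀ y z, Cls y z → big (lev y) ∨ big (lev z))
    (hlev : ∀ y z y' z', Cls y z → lev y' = lev y → lev z' = lev z → y' ≠ z' → Cls y' z')
    (hrank : ∀ v u : ι → ℝ, v ≠ 0 → u ≠ 0 → (∀ y z, v y ≠ 0 → u z ≠ 0 → Cls y z) →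
      ∃ X ∈ V, ∑ y, ∑ z, v y * u z * X y z ≠ 0)
    (T : ι → ι → ℝ) : ∃ X ∈ V, ∀ y z, Cls y z → X y z = T y z := by
  classical
  let π : Matrix ι ι ℝ →ₗ[ℝ] {p : ι × ι // Cls p.1 p.2} → ℝ :=
    { toFun := fun X p => X p.1.1 p.1.2
      map_add' := fun X Y => rfl
      map_smul' := fun r X => rfl }
  suffices htop : V.map π = ⊤ by
    obtain ⟨X, hX, e⟩ : (fun p : {p : ι × ι // Cls p.1 p.2} => T p.1.1 p.1.2) ∈ V.map π :=
      htop ▸ Submodule.mem_top
    exact ⟨X, hX, fun y z h => congrFun e ⟨(y, z), h⟩⟩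
  by_contra hlt
  obtain ⟨φ, hφ, hker⟩ := Submodule.exists_le_ker_of_lt_top _ (lt_top_iff_ne_top.2 hlt)
  let P : Submodule ℝ (Matrix ι ι ℝ) :=
    { carrier := {c | ∀ X ∈ V, entryPair c X = 0}
      add_mem' := fun {a b} ha hb X hX => by
        simp only [Set.mem_setOf_eq] at ha hb
        have e1 := ha X hX
        have e2 := hb X hX
        simp only [entryPair] at e1 e2
        simp [entryPair, add_mul, Finset.sum_add_distrib, e1, e2]
      zero_mem' := fun X _ => by simp [entryPair]
      smul_mem' := fun r a ha X hX => by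
        simp only [Set.mem_setOf_eq] at ha
        simp only [entryPair, Matrix.smul_apply, smul_eq_mul, mul_assoc, ← Finset.mul_sum]
        exact mul_eq_zero_of_right _ (ha X hX) }
  have hP : LevStable lev big P := fun i j hij hl hb M hM X hX => by
    rw [entryPair_bracket]
    exact hM _ (hV j i hij.symm hl.symm (hl ▸ hb) X hX)
  set c : Matrix ι ι ℝ := fun y z =>
    if h : Cls y z then φ (Pi.single ⟨(y, z), h⟩ 1) else 0 with hc
  have hcval : ∀ (p : {p : ι × ι // Cls p.1 p.2}), c p.1.1 p.1.2 = φ (Pi.single p 1) := fun p => by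
    rw [hc]; exact dif_pos p.2
  have hcX : ∀ X : Matrix ι ι ℝ, entryPair c X = φ (π X) := by
    intro X
    have e1 : φ (π X) = ∑ p, π X p * φ (Pi.single p 1) := by
      conv_lhs => rw [pi_eq_sum_univ' (π X)]
      simp only [map_sum, map_smul, smul_eq_mul]
    have e2 : entryPair c X = ∑ p : ι × ι, c p.1 p.2 * X p.1 p.2 :=
      (Fintype.sum_prod_type (f := fun p : ι × ι => c p.1 p.2 * X p.1 p.2)).symm
    rw [e1, e2, ← Finset.sum_filter_add_sum_filter_not Finset.univ
        (fun p : ι × ι => Cls p.1 p.2) fun p => c p.1 p.2 * X p.1 p.2,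
      Finset.sum_eq_zero (s := Finset.univ.filter fun p : ι × ι => ¬ Cls p.1 p.2) fun p hp => by
        rw [show c p.1 p.2 = 0 from dif_neg (Finset.mem_filter.1 hp).2, zero_mul],
      add_zero, Finset.sum_subtype (p := fun p : ι × ι => Cls p.1 p.2)
        (Finset.univ.filter fun p : ι × ι => Cls p.1 p.2) (fun p => by simp)
        fun p => c p.1 p.2 * X p.1 p.2]
    exact Finset.sum_congr rfl fun p _ => by rw [hcval p, mul_comm]; rfl
  have hcP : c ∈ P := fun X hX => by
    rw [hcX]; exact LinearMap.mem_ker.1 (hker (Submodule.mem_map_of_mem hX))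
  have hcne : c ≠ 0 := by
    intro h0
    refine hφ (LinearMap.ext fun f => ?_)
    rw [pi_eq_sum_univ' f, map_sum, LinearMap.zero_apply]
    refine Finset.sum_eq_zero fun p _ => ?_
    have h := hcval p
    rw [h0] at h
    rw [map_smul, ← h]
    simp
  obtain ⟨v, u, hv, hu, hmem, hsupp⟩ := hP.exists_rankOne hcard hcP hcne
    (fun i => dif_neg fun h => hne i i h rfl)
    (fun y z hy hz => dif_neg fun h => (hbig y z h).elim hy hz)
  obtain ⟨X, hX, hne'⟩ := hrank v u hv hu fun y z hy hz => by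
    obtain ⟨hyz, y', z', hc', hy', hz'⟩ := hsupp y z hy hz
    have hC : Cls y' z' := by
      by_contra h
      exact hc' (dif_neg h)
    exact hlev y' z' y z hC hy'.symm hz'.symm hyz
  exact hne' (by simpa [entryPair, vecMulVec_apply] using hmem X hX)

/-- A spanning set of responses contains a finite spanning list. -/
theorem exists_list_surjective {M F : Type*} [AddCommGroup M] [Module ℝ M] [AddCommGroup F]
    [Module ℝ F] [FiniteDimensional ℝ F] (S : Set M) (π : M →ₗ[ℝ] F)
    (h : ∀ y, ∃ x ∈ Submodule.span ℝ S, π x = y) :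
    ∃ (n : ℕ) (x : Fin n → M), (∀ l, x l ∈ S) ∧
      ∀ y, ∃ a : Fin n → ℝ, ∑ l, a l • π (x l) = y := by
  classical
  have htop : Submodule.span ℝ (π '' S) = ⊤ := eq_top_iff.2 fun y _ => by
    obtain ⟨x, hx, rfl⟩ := h y
    exact Submodule.apply_mem_span_image_of_mem_span π hx
  obtain ⟨t, ht, hspan⟩ := (Submodule.fg_span_iff_fg_span_finset_subset _).1
    (IsNoetherian.noetherian (Submodule.span ℝ (π '' S)))
  choose pre hmem hpre using fun y (hy : y ∈ t) => ht hy
  refine ⟨t.card, fun l => pre _ (t.equivFin.symm l).2, fun l => hmem _ _, fun y => ?_⟩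
  have hy : y ∈ Submodule.span ℝ (Set.range fun l : Fin t.card => π (pre _ (t.equivFin.symm l).2)) := by
    have : (Set.range fun l : Fin t.card => π (pre _ (t.equivFin.symm l).2)) = (t : Set F) := by
      ext w
      constructor
      · rintro ⟨l, rfl⟩
        simp only [hpre]
        exact (t.equivFin.symm l).2
      · intro hw
        exact ⟨t.equivFin ⟨w, hw⟩, by simp [hpre]⟩
    rw [this, ← hspan, htop]
    exact Submodule.mem_top
  obtain ⟨a, ha⟩ := (Submodule.mem_span_range_iff_exists_fun ℝ).1 hy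
  exact ⟨a, ha⟩

open NormedSpace Filter Topology in
/-- The conjugates of a set by a generated monoid span a space stable under the generated Lie
algebra. -/
theorem bracket_stable_of_lie {A : Type*} [NormedRing A] [NormedAlgebra ℝ A]
    [FiniteDimensional ℝ A] (W S : Set A) {Y : A}
    (hY : ∀ G : Submodule ℝ A, W ⊆ G → (∀ a ∈ G, ∀ b ∈ G, a * b - b * a ∈ G) → Y ∈ G) :
    ∀ Z ∈ Submodule.span ℝ {x : A | ∃ g : Aˣ, (g : A) ∈ expMonoid W ∧
        ((g⁻¹ : Aˣ) : A) ∈ expMonoid W ∧ ∃ s ∈ S, x = g * s * ((g⁻¹ : Aˣ) : A)},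
      Y * Z - Z * Y ∈ Submodule.span ℝ {x : A | ∃ g : Aˣ, (g : A) ∈ expMonoid W ∧
        ((g⁻¹ : Aˣ) : A) ∈ expMonoid W ∧ ∃ s ∈ S, x = g * s * ((g⁻¹ : Aˣ) : A)} := by
  have : CompleteSpace A := FiniteDimensional.complete ℝ A
  set C : Set A := {x : A | ∃ g : Aˣ, (g : A) ∈ expMonoid W ∧
    ((g⁻¹ : Aˣ) : A) ∈ expMonoid W ∧ ∃ s ∈ S, x = g * s * ((g⁻¹ : Aˣ) : A)} with hC
  set P := Submodule.span ℝ C
  let N : Submodule ℝ A :=
    ⨅ Z ∈ P, P.comap (LinearMap.mulRight ℝ Z - LinearMap.mulLeft ℝ Z)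
  have hN : ∀ Y, Y ∈ N ↔ ∀ Z ∈ P, Y * Z - Z * Y ∈ P := fun Y => by
    simp [N, Submodule.mem_iInf]
  refine (hN Y).1 (hY N (fun X hX => (hN X).2 fun Z hZ => ?_) fun a ha b hb => ?_)
  · have hconj : ∀ t : ℝ, exp (t • X) * Z * exp (t • (-X)) ∈ P := by
      intro t
      refine (Submodule.mem_comap (f := (LinearMap.mulRight ℝ (exp (t • (-X)))).comp
        (LinearMap.mulLeft ℝ (exp (t • X))))).1 (Submodule.span_le.2 ?_ hZ)
      rintro _ ⟨g, hg, hg', s, hs, rfl⟩
      have e : t • (-X) = (-t) • X := by rw [smul_neg, neg_smul]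
      refine Submodule.subset_span ⟨expUnit X t * g, ?_, ?_, s, hs, ?_⟩
      · exact mul_mem (exp_mem_expMonoid hX t) hg
      · rw [_root_.mul_inv_rev]
        exact mul_mem hg' (exp_mem_expMonoid hX (-t))
      · simp only [LinearMap.comp_apply, LinearMap.mulRight_apply, LinearMap.mulLeft_apply,
          _root_.mul_inv_rev, Units.val_mul, e, mul_assoc]
        rfl
    have hderiv : HasDerivAt (fun t : ℝ => exp (t • X) * Z * exp (t • (-X))) (X * Z - Z * X) 0 := by
      have h1 : HasDerivAt (fun t : ℝ => exp (t • X)) X 0 := by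
        simpa using hasDerivAt_exp_smul_const X (0 : ℝ)
      have h2 : HasDerivAt (fun t : ℝ => exp (t • (-X))) (-X) 0 := by
        simpa using hasDerivAt_exp_smul_const (-X) (0 : ℝ)
      simpa [sub_eq_add_neg] using (h1.mul_const Z).fun_mul h2
    refine IsClosed.mem_of_tendsto P.closed_of_finiteDimensional
      (hderiv.tendsto_slope) (Filter.Eventually.of_forall fun t => ?_)
    rw [SetLike.mem_coe, slope_def_module]
    exact P.smul_mem _ (P.sub_mem (hconj t) (hconj 0))
  · rw [hN] at ha hb ⊢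
    intro Z hZ
    have := P.sub_mem (ha _ (hb Z hZ)) (hb _ (ha Z hZ))
    convert this using 1
    simp only [sub_mul, mul_sub, mul_assoc]
    abel

/-- Commutators of a generated algebra lie in the Lie algebra of the generators, whatever scalar
parts the generators carry. -/
theorem bracket_mem_of_gen {A B : Type*} [Ring A] [Algebra ℝ A] [Ring B] [Algebra ℝ B]
    (ρ : B →ₗ[ℝ] A) (hρ : ∀ a b, ρ (a * b - b * a) = ρ a * ρ b - ρ b * ρ a)
    (D : Submodule ℝ A) (hDρ : ∀ d ∈ D, ∀ b, Commute d (ρ b))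
    (hD : ∀ d ∈ D, ∀ d' ∈ D, Commute d d') (Xs Zs : Set B) (hZ : ∀ z ∈ Zs, ∀ b, Commute z b)
    (G : Submodule ℝ A) (hG : ∀ a ∈ G, ∀ b ∈ G, a * b - b * a ∈ G)
    (hX : ∀ x ∈ Xs, ∃ d ∈ D, ρ x + d ∈ G)
    (hgen : ∀ P : Submodule ℝ B, Xs ∪ Zs ⊆ P →
      (∀ a ∈ P, ∀ b ∈ P, a * b - b * a ∈ P) → P = ⊤)
    (a b : B) : ρ (a * b - b * a) ∈ G := by
  let G0 : Submodule ℝ B := (G ⊔ D).comap ρ
  let C : Submodule ℝ B := Submodule.span ℝ Zs
  have hC : ∀ z ∈ C, ∀ x, Commute z x := by
    intro z hz x
    induction hz using Submodule.span_induction with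
    | mem w hw => exact hZ w hw x
    | zero => exact Commute.zero_left x
    | add p q _ _ hp hq => exact hp.add_left hq
    | smul r p _ hp => exact hp.smul_left r
  have key : ∀ p ∈ G0 ⊔ C, ∀ q ∈ G0 ⊔ C, ρ (p * q - q * p) ∈ G := by
    intro p hp q hq
    obtain ⟨p', hp', zp, hzp, rfl⟩ := Submodule.mem_sup.1 hp
    obtain ⟨q', hq', zq, hzq, rfl⟩ := Submodule.mem_sup.1 hq
    obtain ⟨gp, hgp, dp, hdp, ep⟩ := Submodule.mem_sup.1 (Submodule.mem_comap.1 hp')
    obtain ⟨gq, hgq, dq, hdq, eq⟩ := Submodule.mem_sup.1 (Submodule.mem_comap.1 hq')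
    have e : (p' + zp) * (q' + zq) - (q' + zq) * (p' + zp) = p' * q' - q' * p' := by
      simp only [add_mul, mul_add, (hC zp hzp q').eq, (hC zq hzq p').eq, (hC zp hzp zq).eq]
      abel
    rw [e, hρ]
    have f1 : gp = ρ p' - dp := eq_sub_of_add_eq ep
    have f2 : gq = ρ q' - dq := eq_sub_of_add_eq eq
    have h := hG gp hgp gq hgq
    convert h using 1
    rw [f1, f2]
    simp only [sub_mul, mul_sub, (hDρ dp hdp q').eq, (hDρ dq hdq p').eq, (hD dp hdp dq hdq).eq]
    abel
  have htop : G0 ⊔ C = ⊤ := by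
    refine hgen _ ?_ fun p hp q hq => ?_
    · rintro x (hx | hx)
      · obtain ⟨d, hd, hg⟩ := hX x hx
        refine Submodule.mem_sup_left (Submodule.mem_comap.2 ?_)
        exact Submodule.mem_sup.2 ⟨_, hg, -d, D.neg_mem hd, by simp⟩
      · exact Submodule.mem_sup_right (Submodule.subset_span hx)
    · exact Submodule.mem_sup_left (Submodule.mem_comap.2 (Submodule.mem_sup_left (key p hp q hq)))
  exact key a (htop ▸ Submodule.mem_top) b (htop ▸ Submodule.mem_top)

end Vale.Agent.P225.Alg
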