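import Mathlib

/-!
P225: the span lemma of the corrector.  A space of matrices on `m ⊕ n` (`m` one non-axis level,
`n` all other states) which is stable under commutators with the off-diagonal units of `m` and
contains the `m × m` block, contains every block row whose rows occur in some member.
-/

namespace Vale.Agent.P225.Alg

open Matrix

set_option linter.unusedSectionVars false

variable {K : Type*} [Field K] {m n : Type*} [Fintype m] [DecidableEq m] [Fintype n] [DecidableEq n]

/-- Stability under commutators with the off-diagonal units of the level `m`. -/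
def LevelStable (P : Submodule K (Matrix (m ⊕ n) (m ⊕ n) K)) : Prop :=
  ∀ i j : m, i ≠ j → ∀ M ∈ P,
    Matrix.single (Sum.inl i) (Sum.inl j) (1 : K) * M
      - M * Matrix.single (Sum.inl i) (Sum.inl j) (1 : K) ∈ P

/-- The matrix whose row `i` is `u` off the level. -/
def rowMat (i : m) : (n → K) →ₗ[K] Matrix (m ⊕ n) (m ⊕ n) K where
  toFun u := ∑ q, Matrix.single (Sum.inl i) (Sum.inr q) (u q)
  map_add' u v := by simp [Matrix.single_add, Finset.sum_add_distrib]
  map_smul' r u := by simp [Finset.smul_sum, Matrix.smul_single]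

variable {P : Submodule K (Matrix (m ⊕ n) (m ⊕ n) K)}

/-- Any row of any member can be moved to any row of the level. -/
theorem rowMat_mem (hP : LevelStable P)
    (hblock : ∀ i j : m, Matrix.single (Sum.inl i) (Sum.inl j) (1 : K) ∈ P)
    (hcard : 3 ≤ Fintype.card m) {M : Matrix (m ⊕ n) (m ⊕ n) K} (hM : M ∈ P) (i j : m) :
    rowMat i (fun q => M (Sum.inl j) (Sum.inr q)) ∈ P := by
  have third : ∀ i j : m, ∃ k, k ≠ i ∧ k ≠ j := by
    intro i j
    obtain ⟨k, -, hk⟩ := Finset.exists_mem_notMem_of_card_lt_card
      (s := {i, j}) (t := (Finset.univ : Finset m))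
      ((Finset.card_le_two).trans_lt (by rw [Finset.card_univ]; omega))
    exact ⟨k, by simp_all, by simp_all⟩
  have hblockmem : ∀ N : Matrix (m ⊕ n) (m ⊕ n) K,
      (∀ a b, N (Sum.inl a) (Sum.inr b) = 0) → (∀ a x, N (Sum.inr a) x = 0) → N ∈ P := by
    intro N h1 h2
    rw [matrix_eq_sum_single N]
    refine P.sum_mem fun x _ => P.sum_mem fun y _ => ?_
    rcases x with a | a
    · rcases y with b | b
      · have h := P.smul_mem (N (Sum.inl a) (Sum.inl b)) (hblock a b)
        rwa [smul_single, smul_eq_mul, mul_one] at h
      · rw [h1, single_zero]; exact P.zero_mem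
    · rw [h2, single_zero]; exact P.zero_mem
  -- first: moving row `j` to a different row `i`
  have move : ∀ M ∈ P, ∀ i j : m, i ≠ j → rowMat i (fun q => M (Sum.inl j) (Sum.inr q)) ∈ P := by
    intro M hM i j hij
    obtain ⟨k, hki, hkj⟩ := third i j
    have h1 := hP i k hki.symm _ (hP k j hkj M hM)
    set R := rowMat i (fun q => M (Sum.inl j) (Sum.inr q))
    have h2 : Matrix.single (Sum.inl i) (Sum.inl k) (1 : K)
          * (Matrix.single (Sum.inl k) (Sum.inl j) (1 : K) * M
            - M * Matrix.single (Sum.inl k) (Sum.inl j) (1 : K))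
        - (Matrix.single (Sum.inl k) (Sum.inl j) (1 : K) * M
            - M * Matrix.single (Sum.inl k) (Sum.inl j) (1 : K))
          * Matrix.single (Sum.inl i) (Sum.inl k) (1 : K) - R ∈ P := by
      refine hblockmem _ (fun a b => ?_) (fun a x => ?_)
      · rcases eq_or_ne a i with rfl | hai
        · simp [R, rowMat, mul_apply, Matrix.sum_apply, single_apply, mul_sub, sub_mul]
        · simp [R, rowMat, mul_apply, Matrix.sum_apply, single_apply, mul_sub, sub_mul,
            Ne.symm hai]
      · rcases x with b | b
        · simp [R, rowMat, mul_apply, Matrix.sum_apply, single_apply, mul_sub, sub_mul]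
          refine Finset.sum_eq_zero fun x _ => ?_
          split_ifs with h
          · refine Finset.sum_eq_zero fun y _ => ?_
            split_ifs with h'
            · exact absurd (h.1.trans h'.2.symm) hij
            · rfl
          · rfl
        · simp [R, rowMat, mul_apply, Matrix.sum_apply, single_apply, mul_sub, sub_mul]
    have h := P.sub_mem h1 h2
    rwa [sub_sub_cancel] at h
  rcases eq_or_ne i j with rfl | hij
  · obtain ⟨k, hki, -⟩ := third i i
    have h1 := move _ (move M hM k i hki) i k hki.symm
    convert h1 using 3 with q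
    simp [rowMat, Matrix.sum_apply, single_apply]
  · exact move M hM i j hij

/-- If the rows of members span everything, every block row of the level lies in the space. -/
theorem rowMat_mem_of_span (hP : LevelStable P)
    (hblock : ∀ i j : m, Matrix.single (Sum.inl i) (Sum.inl j) (1 : K) ∈ P)
    (hcard : 3 ≤ Fintype.card m)
    (hspan : Submodule.span K {u : n → K | ∃ M ∈ P, ∃ j, u = fun q => M (Sum.inl j) (Sum.inr q)} = ⊤)
    (i : m) (u : n → K) : rowMat i u ∈ P := by
  refine (Submodule.mem_comap (f := rowMat i)).1 ?_
  have hu : u ∈ Submodule.span K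
      {u : n → K | ∃ M ∈ P, ∃ j, u = fun q => M (Sum.inl j) (Sum.inr q)} := hspan ▸ Submodule.mem_top
  refine Submodule.span_le.2 ?_ hu
  rintro _ ⟨M, hM, j, rfl⟩
  exact rowMat_mem hP hblock hcard hM i j

/-- Stability of the row space under an irreducible action turns one nonzero row into all rows. -/
theorem span_rows_eq_top (ρ : Set (Matrix n n K))
    (hirr : ∀ U : Submodule K (n → K), (∀ g ∈ ρ, ∀ u ∈ U, u ᵥ* g ∈ U) → U = ⊥ ∨ U = ⊤)
    {R : Set (n → K)} (hR : ∀ g ∈ ρ, ∀ u ∈ R, u ᵥ* g ∈ Submodule.span K R) {u₀ : n → K}
    (h0 : u₀ ∈ R) (hne : u₀ ≠ 0) : Submodule.span K R = ⊤ := by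
  refine (hirr _ fun g hg u hu => ?_).resolve_left ?_
  · refine (Submodule.mem_comap (f := Matrix.vecMulLinear g)).1 (Submodule.span_le.2 ?_ hu)
    exact fun v hv => hR g hg v hv
  · intro e
    exact hne (by simpa [e] using Submodule.subset_span (R := K) h0)

end Vale.Agent.P225.Alg
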