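import Vale.Agent.P225.Defs

/-!
P225 module 7 (helper27): the exact count for the rev8 construction, `k = 14`.

`Scls p` is, in each of the four parity classes of `(a, b)`, a set of whole blocks `V = (a, b, c)`
with `a, b ≥ 1`.  The blocks carry together (with the constant) more states than `h₁₄(ℝ⁷)`, the
mean exponent in every class is at most `1399/100 < 14`, and every class is connected under
sharing a junction level with both labels nonzero.
-/

namespace Vale.Agent.P225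

open scoped BigOperators

namespace Count

/-- A block `V = (a, b, c)`. -/
abbrev Blk := ℕ × ℕ × ℕ

/-- Triangle condition with even sum. -/
def Tri (V : Blk) : Prop :=
  (V.1 + V.2.1 + V.2.2) % 2 = 0 ∧ V.1 ≤ V.2.1 + V.2.2 ∧ V.2.1 ≤ V.1 + V.2.2 ∧
    V.2.2 ≤ V.1 + V.2.1

instance : DecidablePred Tri := fun V => by unfold Tri; infer_instance

/-- Dimension of a block. -/
def dimV (V : Blk) : ℕ := (V.1 + 1) * (V.2.1 + 1) * (V.2.2 + 1)

/-- `c_a + c_b`, the junction-3 eigenvalue for unit speeds. -/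
def lev (a b : ℕ) : ℕ := a * (a + 2) + b * (b + 2)

/-- Two blocks share a junction level both of whose labels are nonzero. -/
def Share (V V' : Blk) : Prop :=
  (V.1 ≠ 0 ∧ V.2.1 ≠ 0 ∧ V.1 = V'.1 ∧ V.2.1 = V'.2.1) ∨
  (V.2.1 ≠ 0 ∧ V.2.2 ≠ 0 ∧ V.2.1 = V'.2.1 ∧ V.2.2 = V'.2.2) ∨
  (V.2.2 ≠ 0 ∧ V.1 ≠ 0 ∧ V.2.2 = V'.2.2 ∧ V.1 = V'.1)

instance (V V' : Blk) : Decidable (Share V V') := by unfold Share; infer_instance

theorem Share.symm {V V' : Blk} (h : Share V V') : Share V' V := by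
  rcases h with ⟨h1, h2, h3, h4⟩ | ⟨h1, h2, h3, h4⟩ | ⟨h1, h2, h3, h4⟩
  · exact Or.inl ⟨h3 ▸ h1, h4 ▸ h2, h3.symm, h4.symm⟩
  · exact Or.inr (Or.inl ⟨h3 ▸ h1, h4 ▸ h2, h3.symm, h4.symm⟩)
  · exact Or.inr (Or.inr ⟨h3 ▸ h1, h4 ▸ h2, h3.symm, h4.symm⟩)

/-- The blocks of one level entry. -/
def expand (e : ℕ × ℕ × ℕ × ℕ) : List (Blk × ℕ) :=
  (List.range e.2.2.1).map fun i => ((e.1, e.2.1, (e.1 - e.2.1) + (e.2.1 - e.1) + 2 * i), e.2.2.2)

/-- Junction-3 levels `(a, b, number of c's, 10⁴ × upper bound of α)`, in a connected order. -/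
def levels0 : List (ℕ × ℕ × ℕ × ℕ) :=
  [(2, 2, 3, 47153), (2, 4, 3, 73929), (4, 2, 3, 73929), (4, 4, 5, 94867),
    (2, 6, 3, 104068), (6, 2, 3, 104068), (4, 6, 5, 120738), (6, 4, 5, 120738),
    (2, 8, 3, 135687), (8, 2, 3, 135687), (6, 6, 7, 142663), (4, 8, 5, 149360),
    (8, 4, 5, 149360), (2, 10, 3, 168062), (6, 8, 5, 168062)]

/-- Junction-3 levels `(a, b, number of c's, 10⁴ × upper bound of α)`, in a connected order. -/
def levels1 : List (ℕ × ℕ × ℕ × ℕ) :=
  [(2, 1, 2, 36437), (2, 3, 3, 59913), (4, 1, 2, 66408), (4, 3, 4, 83587),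
    (2, 5, 3, 88738), (6, 1, 2, 98397), (4, 5, 5, 107353), (6, 3, 4, 111611),
    (2, 7, 3, 119752), (6, 5, 6, 131169), (8, 1, 2, 131169), (4, 7, 5, 134794),
    (8, 3, 4, 141807), (2, 9, 3, 151806), (6, 7, 7, 155016), (8, 5, 6, 158169),
    (4, 9, 4, 164318)]

/-- Junction-3 levels `(a, b, number of c's, 10⁴ × upper bound of α)`, in a connected order. -/
def levels2 : List (ℕ × ℕ × ℕ × ℕ) :=
  [(1, 2, 2, 36437), (3, 2, 3, 59913), (1, 4, 2, 66408), (3, 4, 4, 83587),
    (5, 2, 3, 88738), (1, 6, 2, 98397), (5, 4, 5, 107353), (3, 6, 4, 111611),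
    (7, 2, 3, 119752), (1, 8, 2, 131169), (5, 6, 6, 131169), (7, 4, 5, 134794),
    (3, 8, 4, 141807), (9, 2, 3, 151806), (7, 6, 7, 155016), (5, 8, 6, 158169),
    (1, 10, 2, 164318), (9, 4, 3, 164318)]

/-- Junction-3 levels `(a, b, number of c's, 10⁴ × upper bound of α)`, in a connected order. -/
def levels3 : List (ℕ × ℕ × ℕ × ℕ) :=
  [(1, 1, 2, 23404), (1, 3, 2, 51017), (3, 1, 2, 51017), (3, 3, 4, 70992),
    (1, 5, 2, 82261), (5, 1, 2, 82261), (3, 5, 4, 97232), (5, 3, 4, 97232),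
    (1, 7, 2, 114720), (7, 1, 2, 114720), (5, 5, 6, 118760), (3, 7, 4, 126517),
    (7, 3, 4, 126517), (5, 7, 6, 144362), (7, 5, 6, 144362), (1, 9, 2, 147710),
    (9, 1, 2, 147710), (3, 9, 4, 157386), (9, 3, 4, 157386), (7, 7, 6, 166573)]

/-- The level table of a class. -/
def levels : Fin 4 → List (ℕ × ℕ × ℕ × ℕ) := ![levels0, levels1, levels2, levels3]

/-- The blocks of a class, with their bound on `α`. -/
def entries (p : Fin 4) : List (Blk × ℕ) := (levels p).flatMap expand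

/-- The blocks of a class, as a list. -/
def blkList (p : Fin 4) : List Blk := (entries p).map Prod.fst

theorem blkList_nodup : ∀ p, (blkList p).Nodup := by decide +kernel

/-- `S_class`: the chosen whole blocks of the parity class `p`. -/
def Scls (p : Fin 4) : Finset Blk := ⟨blkList p, blkList_nodup p⟩

theorem blkList_spec : ∀ p, ∀ V ∈ blkList p, Tri V ∧ 1 ≤ V.1 ∧ 1 ≤ V.2.1 ∧
    V.1 ≤ 10 ∧ V.2.1 ≤ 10 ∧ V.1 % 2 * 2 + V.2.1 % 2 = p.val := by decide +kernel

theorem scls_spec {p : Fin 4} {V : Blk} (h : V ∈ Scls p) : Tri V ∧ 1 ≤ V.1 ∧ 1 ≤ V.2.1 ∧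
    V.1 ≤ 10 ∧ V.2.1 ≤ 10 ∧ V.1 % 2 * 2 + V.2.1 % 2 = p.val :=
  blkList_spec p V h

theorem scls_disjoint {p q : Fin 4} {V : Blk} (hp : V ∈ Scls p) (hq : V ∈ Scls q) : p = q :=
  Fin.ext ((scls_spec hp).2.2.2.2.2.symm.trans (scls_spec hq).2.2.2.2.2)

theorem sum_scls {M : Type*} [AddCommMonoid M] (p : Fin 4) (f : Blk → M) :
    ∑ V ∈ Scls p, f V = ((blkList p).map f).sum := by
  rw [Finset.sum_eq_multiset_sum]
  rfl

theorem states_table : ((blkList 0).map dimV).sum = 15691 ∧ ((blkList 1).map dimV).sum = 17196 ∧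
    ((blkList 2).map dimV).sum = 17080 ∧ ((blkList 3).map dimV).sum = 16608 := by decide +kernel

theorem euclideanDim_seven_fourteen : euclideanDim 7 14 = 65892 := by decide +kernel

/-- More states than `h₁₄(ℝ⁷)`. -/
theorem scls_count : euclideanDim 7 14 < 1 + ∑ p, ∑ V ∈ Scls p, dimV V := by
  obtain ⟨h0, h1, h2, h3⟩ := states_table
  simp only [sum_scls, Fin.sum_univ_four, h0, h1, h2, h3, euclideanDim_seven_fourteen]
  norm_num

/-- Junction-3 exponent: the nonnegative root of `α(α+5) = s (c_a + c_b)`. -/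
noncomputable def alphaJ (s : ℝ) (a b : ℕ) : ℝ := (Real.sqrt (25 + 4 * s * lev a b) - 5) / 2

theorem alphaJ_eq {s : ℝ} (hs : 0 ≤ s) (a b : ℕ) :
    alphaJ s a b * (alphaJ s a b + 5) = s * lev a b := by
  have h : Real.sqrt (25 + 4 * s * lev a b) ^ 2 = 25 + 4 * s * lev a b :=
    Real.sq_sqrt (by positivity)
  unfold alphaJ
  nlinarith [h]

theorem alphaJ_le {s : ℝ} (hs : 0 ≤ s) (hD : s ^ 2 ≤ 1000 / 122) {a b u : ℕ}
    (hu : 28631 * 10000 * lev a b ≤ u * (u + 50000)) : alphaJ s a b ≤ (u : ℝ) / 10000 := by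
  have hs' : s ≤ 28631 / 10000 := by nlinarith
  have hu' : (28631 : ℝ) * 10000 * lev a b ≤ (u : ℝ) * ((u : ℝ) + 50000) := by exact_mod_cast hu
  have hL : (0 : ℝ) ≤ lev a b := Nat.cast_nonneg _
  have hsq : Real.sqrt (25 + 4 * s * lev a b) ≤ 2 * ((u : ℝ) / 10000) + 5 := by
    rw [Real.sqrt_le_iff]
    refine ⟨by positivity, ?_⟩
    nlinarith [mul_le_mul_of_nonneg_right hs' hL]
  unfold alphaJ
  linarith

theorem entries_bound : ∀ p, ∀ e ∈ entries p,
    28631 * 10000 * lev e.1.1 e.1.2.1 ≤ e.2 * (e.2 + 50000) := by decide +kernel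

theorem mean_table : ∀ p, ((entries p).map fun e => dimV e.1 * e.2).sum ≤
    139900 * ((blkList p).map dimV).sum := by decide +kernel

/-- The mean exponent of every class is at most `1399/100`, whenever `det Q ≥ 122/1000`. -/
theorem scls_mean {s : ℝ} (hs : 0 ≤ s) (hD : s ^ 2 ≤ 1000 / 122) (p : Fin 4) :
    ∑ V ∈ Scls p, (dimV V : ℝ) * alphaJ s V.1 V.2.1 ≤
      1399 / 100 * ∑ V ∈ Scls p, (dimV V : ℝ) := by
  have key : ((entries p).map fun e => (dimV e.1 : ℝ) * alphaJ s e.1.1 e.1.2.1).sum ≤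
      ((entries p).map fun e => ((dimV e.1 * e.2 : ℕ) : ℝ) / 10000).sum := by
    refine List.sum_le_sum fun e he => ?_
    have := alphaJ_le hs hD (entries_bound p e he)
    calc (dimV e.1 : ℝ) * alphaJ s e.1.1 e.1.2.1 ≤ (dimV e.1 : ℝ) * ((e.2 : ℝ) / 10000) :=
          mul_le_mul_of_nonneg_left this (Nat.cast_nonneg _)
      _ = ((dimV e.1 * e.2 : ℕ) : ℝ) / 10000 := by push_cast; ring
  have h2 : ((entries p).map fun e => ((dimV e.1 * e.2 : ℕ) : ℝ) / 10000).sum =
      (((entries p).map fun e => dimV e.1 * e.2).sum : ℝ) / 10000 := by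
    induction entries p with
    | nil => simp
    | cons x l ih => simp only [List.map_cons, List.sum_cons, ih]; push_cast; ring
  have h3 : ((((entries p).map fun e => dimV e.1 * e.2).sum : ℕ) : ℝ) ≤
      139900 * ((((blkList p).map dimV).sum : ℕ) : ℝ) := by exact_mod_cast mean_table p
  rw [sum_scls, sum_scls, show (fun V => (dimV V : ℝ)) = (Nat.cast ∘ dimV) from rfl,
    ← List.map_map (l := blkList p), ← Nat.cast_list_sum, blkList, List.map_map]
  rw [blkList] at h3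
  simp only [Function.comp_def] at key ⊢
  linarith

/-- Any finite set of exponents can be avoided by a weight strictly between the means and `14`. -/
theorem exists_weight (F : Finset ℝ) : ∃ k' : ℝ, 1399 / 100 < k' ∧ k' < 14 ∧ k' ∉ F := by
  have h : (Set.Ioo (1399 / 100 : ℝ) 14).Infinite := Set.Ioo_infinite (by norm_num)
  obtain ⟨k', hk, hF⟩ := h.exists_notMem_finset F
  exact ⟨k', hk.1, hk.2, hF⟩

theorem linked_table : ∀ p, ∀ i : Fin (blkList p).length, i.val ≠ 0 →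
    ∃ k : Fin (blkList p).length, Share ((blkList p).get i) ((blkList p).get k) ∧
      ∃ j : Fin (blkList p).length,
        j.val < i.val ∧ Share ((blkList p).get k) ((blkList p).get j) := by
  decide +kernel

/-- Every class is connected. -/
theorem scls_connected (p : Fin 4) {V V' : Blk} (hV : V ∈ Scls p) (hV' : V' ∈ Scls p) :
    Relation.ReflTransGen (fun x y => x ∈ Scls p ∧ y ∈ Scls p ∧ Share x y) V V' := by
  set r := fun x y => x ∈ Scls p ∧ y ∈ Scls p ∧ Share x y with hr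
  have hsym : ∀ x y, r x y → r y x := fun x y h => ⟨h.2.1, h.1, h.2.2.symm⟩
  have hmem : ∀ i, (blkList p).get i ∈ Scls p := fun i => List.get_mem _ i
  have root : ∀ i : Fin (blkList p).length,
      Relation.ReflTransGen r ((blkList p).get i)
        ((blkList p).get ⟨0, lt_of_le_of_lt (Nat.zero_le _) i.isLt⟩) := by
    rintro ⟨i, hi⟩
    induction i using Nat.strong_induction_on with
    | _ i ih =>
      rcases Nat.eq_zero_or_pos i with h0 | h0
      · subst h0; exact .refl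
      · obtain ⟨k, hk, j, hj, hs⟩ := linked_table p ⟨i, hi⟩ (Nat.pos_iff_ne_zero.1 h0)
        exact Relation.ReflTransGen.head ⟨hmem _, hmem _, hk⟩
          (Relation.ReflTransGen.head ⟨hmem _, hmem _, hs⟩ (ih j hj j.isLt))
  obtain ⟨i, rfl⟩ := List.get_of_mem (show V ∈ blkList p from hV)
  obtain ⟨j, rfl⟩ := List.get_of_mem (show V' ∈ blkList p from hV')
  refine (root i).trans ?_
  have : Std.Symm r := ⟨hsym⟩
  exact Relation.ReflTransGen.stdSymm.symm _ _ (root j)

/-- The states of a class. -/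
abbrev State (p : Fin 4) := Σ V : Scls p, Fin (dimV V.1)

/-- Transpositions of two states that share a junction level generate all permutations. -/
theorem swaps_generate (p : Fin 4) :
    Subgroup.closure {σ : Equiv.Perm (State p) |
      ∃ x y : State p, Share x.1.1 y.1.1 ∧ σ = Equiv.swap x y} = ⊤ := by
  set G := Subgroup.closure {σ : Equiv.Perm (State p) |
      ∃ x y : State p, Share x.1.1 y.1.1 ∧ σ = Equiv.swap x y} with hG
  have self : ∀ x : State p, Share x.1.1 x.1.1 := fun x => by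
    obtain ⟨-, h1, h2, -⟩ := scls_spec x.1.2
    exact Or.inl ⟨by omega, by omega, rfl, rfl⟩
  have conn : ∀ V : Blk, ∀ hV : V ∈ Scls p, ∀ V' : Blk,
      Relation.ReflTransGen (fun x y => x ∈ Scls p ∧ y ∈ Scls p ∧ Share x y) V V' →
      ∀ hV' : V' ∈ Scls p, ∀ m : Fin (dimV V), ∀ m' : Fin (dimV V'),
        Equiv.swap (⟨⟨V, hV⟩, m⟩ : State p) ⟨⟨V', hV'⟩, m'⟩ ∈ G := by
    intro V hV V' hreach
    induction hreach with
    | refl =>
      intro hV' m m'
      exact Subgroup.subset_closure ⟨⟨⟨V, hV⟩, m⟩, ⟨⟨V, hV'⟩, m'⟩, self ⟨⟨V, hV⟩, m⟩, rfl⟩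
    | @tail W W' hVW hWW' ih =>
      intro hV' m m'
      have hW := hWW'.1
      let z : State p := ⟨⟨W, hW⟩, ⟨0, by unfold dimV; positivity⟩⟩
      let x : State p := ⟨⟨V, hV⟩, m⟩
      let y : State p := ⟨⟨W', hV'⟩, m'⟩
      have hxz : Equiv.swap x z ∈ G := ih hW m ⟨0, by unfold dimV; positivity⟩
      have hzy : Equiv.swap z y ∈ G := Subgroup.subset_closure ⟨z, y, hWW'.2.2, rfl⟩
      show Equiv.swap x y ∈ G
      by_cases hxy : x = y
      · rw [hxy, Equiv.swap_self]; exact one_mem G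
      by_cases hzx : z = x
      · exact hzx ▸ hzy
      by_cases hzy' : z = y
      · exact hzy' ▸ hxz
      have hzyx : Equiv.swap z x * Equiv.swap y z * Equiv.swap z x = Equiv.swap x y :=
        Equiv.swap_mul_swap_mul_swap (Ne.symm hzy') (Ne.symm hxy)
      rw [← hzyx]
      rw [Equiv.swap_comm z x, Equiv.swap_comm y z]
      exact mul_mem (mul_mem hxz hzy) hxz
  rw [eq_top_iff, ← Equiv.Perm.closure_isSwap (α := State p), Subgroup.closure_le]
  rintro σ ⟨⟨⟨V, hV⟩, m⟩, ⟨⟨V', hV'⟩, m'⟩, -, rfl⟩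
  exact conn V hV V' (scls_connected p hV hV') hV' m m'

/-- A single cycle through all states of a class is a product of such transpositions. -/
theorem exists_cycle_word (p : Fin 4) : ∃ (σ : Equiv.Perm (State p)),
    σ.IsCycleOn Set.univ ∧ ∃ l : List (Equiv.Perm (State p)),
      (∀ τ ∈ l, ∃ x y : State p, Share x.1.1 y.1.1 ∧ τ = Equiv.swap x y) ∧ l.prod = σ := by
  obtain ⟨σ, hσ, -⟩ :=
    Finset.exists_cycleOn (Finset.univ : Finset (State p))
  refine ⟨σ, by simpa using hσ, ?_⟩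
  have hmem : σ ∈ Subgroup.closure {τ : Equiv.Perm (State p) |
      ∃ x y : State p, Share x.1.1 y.1.1 ∧ τ = Equiv.swap x y} := by
    rw [swaps_generate]; trivial
  rw [← Subgroup.mem_toSubmonoid, Subgroup.closure_toSubmonoid] at hmem
  obtain ⟨l, hl, hprod⟩ := Submonoid.exists_list_of_mem_closure hmem
  refine ⟨l, fun τ hτ => ?_, hprod⟩
  rcases hl τ hτ with h | ⟨x, y, hxy, he⟩
  · exact h
  · exact ⟨x, y, hxy, by rw [← inv_inv τ, he, Equiv.swap_inv]⟩

end Count

end Vale.Agent.P225
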