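import Vale.Agent.P225.Space
import Vale.Agent.P225.Alg.Count

/-!
P225 module 7 (helper27), on the shared state space: the four classes as finsets of `Blk` and of
states, the mean exponent, and one periodic list of transpositions of states sharing a junction
level (both labels nonzero) whose product is, on each class, one cycle.
-/

namespace Vale.Agent.P225.Count

open scoped BigOperators

/-- The chosen blocks of class `p`. -/
def sBlk (p : Fin 4) : Finset Vale.Agent.P225.Blk :=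
  (Scls p).attach.map
    { toFun := fun V => ⟨V.1, (scls_spec V.2).1⟩
      inj' := fun V W h => by
        have h' : V.1 = W.1 := congrArg (fun U : Vale.Agent.P225.Blk => U.1) h
        exact Subtype.ext h' }

theorem mem_sBlk {p : Fin 4} {V : Vale.Agent.P225.Blk} : V ∈ sBlk p ↔ V.1 ∈ Scls p := by
  simp only [sBlk, Finset.mem_map, Finset.mem_attach, true_and]
  constructor
  · rintro ⟨W, rfl⟩; exact W.2
  · exact fun h => ⟨⟨V.1, h⟩, rfl⟩

theorem sum_sBlk {M : Type*} [AddCommMonoid M] (p : Fin 4) (f : ℕ × ℕ × ℕ → M) :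
    ∑ V ∈ sBlk p, f V.1 = ∑ V ∈ Scls p, f V := by
  simp only [sBlk, Finset.sum_map]
  exact Finset.sum_attach (Scls p) f

theorem dim_eq_dimV (V : Vale.Agent.P225.Blk) : V.dim = dimV V.1 := rfl

theorem sBlk_spec {p : Fin 4} {V : Vale.Agent.P225.Blk} (h : V ∈ sBlk p) :
    1 ≤ V.la ∧ 1 ≤ V.lb ∧ V.la ≤ 10 ∧ V.lb ≤ 10 ∧ V.la % 2 * 2 + V.lb % 2 = p.val :=
  (scls_spec (mem_sBlk.1 h)).2

theorem sBlk_disjoint {p q : Fin 4} {V : Vale.Agent.P225.Blk} (hp : V ∈ sBlk p) (hq : V ∈ sBlk q) :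
    p = q :=
  scls_disjoint (mem_sBlk.1 hp) (mem_sBlk.1 hq)

/-- `-Δ` at junction `3` with speeds `(s, s, 0)`. -/
theorem lam_junction (s : ℝ) (V : Vale.Agent.P225.Blk) :
    Blk.lam ![s, s, 0] V = s * lev V.la V.lb := by
  simp [Blk.lam, Blk.cas, lev]
  ring

/-- `alphaJ` is the only nonnegative root. -/
theorem alphaJ_unique {s x : ℝ} (hs : 0 ≤ s) (hx : 0 ≤ x) {a b : ℕ}
    (h : x * (x + 5) = s * lev a b) : x = alphaJ s a b := by
  have h2 := alphaJ_eq hs a b
  have h3 : 0 ≤ alphaJ s a b := by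
    have hl : (0 : ℝ) ≤ 4 * s * lev a b := by positivity
    have : (5 : ℝ) ≤ Real.sqrt (25 + 4 * s * lev a b) := Real.le_sqrt_of_sq_le (by linarith)
    unfold alphaJ; linarith
  by_contra hne
  have : (x - alphaJ s a b) * (x + alphaJ s a b + 5) = 0 := by linarith [h, h2]
  rcases mul_eq_zero.1 this with h0 | h0
  · exact hne (by linarith)
  · linarith

/-- The states of class `p`. -/
def sStates (p : Fin 4) : Finset St := (sBlk p).sigma fun _ => Finset.univ

theorem mem_sStates {p : Fin 4} {i : St} : i ∈ sStates p ↔ i.blk ∈ sBlk p := by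
  simp [sStates]

theorem sum_sStates {M : Type*} [AddCommMonoid M] (p : Fin 4) (f : Vale.Agent.P225.Blk → M) :
    ∑ i ∈ sStates p, f i.blk = ∑ V ∈ sBlk p, V.dim • f V := by
  rw [sStates, Finset.sum_sigma]
  refine Finset.sum_congr rfl fun V _ => ?_
  show ∑ _m : Fin V.dim, f V = V.dim • f V
  simp

theorem sStates_card (p : Fin 4) : (sStates p).card = ∑ V ∈ Scls p, dimV V := by
  rw [sStates, Finset.card_sigma, ← sum_sBlk p dimV]
  exact Finset.sum_congr rfl fun V _ => (Finset.card_fin V.dim).trans (dim_eq_dimV V)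

theorem sStates_count : euclideanDim 7 14 < 1 + ∑ p, (sStates p).card := by
  simp only [sStates_card]
  exact scls_count

theorem sStates_card_pos (p : Fin 4) : 0 < (sStates p).card := by
  rw [sStates_card, sum_scls]
  obtain ⟨h0, h1, h2, h3⟩ := states_table
  fin_cases p <;> simp_all

/-- The mean exponent of the states of each class is at most `1399/100`. -/
theorem sStates_mean {s : ℝ} (hs : 0 ≤ s) (hD : s ^ 2 ≤ 1000 / 122) (p : Fin 4) :
    ∑ i ∈ sStates p, alphaJ s i.blk.la i.blk.lb ≤ 1399 / 100 * (sStates p).card := by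
  rw [sum_sStates p fun V => alphaJ s V.la V.lb, sStates_card]
  simp only [nsmul_eq_mul, dim_eq_dimV]
  push_cast
  show ∑ V ∈ sBlk p, (fun U => (dimV U : ℝ) * alphaJ s U.1 U.2.1) V.1 ≤ _
  rw [sum_sBlk p fun V => (dimV V : ℝ) * alphaJ s V.1 V.2.1]
  exact scls_mean hs hD p

/-- Two states share the pair seen at junction `J`, and both its labels are nonzero. -/
def ShareAt (J : Fin 3) (i j : St) : Prop :=
  i.blk.level J = j.blk.level J ∧ (i.blk.level J).1 ≠ 0 ∧ (i.blk.level J).2 ≠ 0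

theorem exists_shareAt {i j : St} (h : Share i.blk.1 j.blk.1) : ∃ J, ShareAt J i j := by
  rcases h with ⟨h1, h2, h3, h4⟩ | ⟨h1, h2, h3, h4⟩ | ⟨h1, h2, h3, h4⟩
  · exact ⟨0, Prod.ext h3 h4, h1, h2⟩
  · exact ⟨1, Prod.ext h3 h4, h1, h2⟩
  · exact ⟨2, Prod.ext h3 h4, h1, h2⟩

instance : DecidableEq Vale.Agent.P225.Blk :=
  inferInstanceAs (DecidableEq {V : ℕ × ℕ × ℕ // Vale.Agent.P225.Tri V.1 V.2.1 V.2.2})

/-- The permutation of a word of transpositions. -/
def wordPerm (w : List (Fin 3 × St × St)) : Equiv.Perm St :=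
  (w.map fun t => Equiv.swap t.2.1 t.2.2).prod

theorem wordPerm_eq (w : List (Fin 3 × St × St)) :
    wordPerm w = (w.map fun t => Equiv.swap t.2.1 t.2.2).prod := rfl

theorem wordPerm_nil : wordPerm [] = 1 := rfl

theorem wordPerm_cons (t : Fin 3 × St × St) (w : List (Fin 3 × St × St)) :
    wordPerm (t :: w) = Equiv.swap t.2.1 t.2.2 * wordPerm w := by
  simp [wordPerm_eq]

theorem wordPerm_append (w w' : List (Fin 3 × St × St)) :
    wordPerm (w ++ w') = wordPerm w * wordPerm w' := by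
  simp [wordPerm_eq]

/-- A word whose pairs avoid `x` fixes `x`. -/
theorem wordPerm_fix {w : List (Fin 3 × St × St)} {x : St}
    (h : ∀ t ∈ w, x ≠ t.2.1 ∧ x ≠ t.2.2) : wordPerm w x = x := by
  induction w with
  | nil => rfl
  | cons t w ih =>
    rw [wordPerm_cons, Equiv.Perm.mul_apply, ih fun u hu => h u (List.mem_cons_of_mem _ hu),
      Equiv.swap_apply_of_ne_of_ne (h t List.mem_cons_self).1 (h t List.mem_cons_self).2]

/-- A state of class `p` as a global state. -/
def toSt {p : Fin 4} (x : State p) : St := ⟨⟨x.1.1, (scls_spec x.1.2).1⟩, x.2⟩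

theorem toSt_injective (p : Fin 4) : Function.Injective (toSt (p := p)) := by
  rintro ⟨⟨V, hV⟩, m⟩ ⟨⟨W, hW⟩, m'⟩ h
  simp only [toSt] at h
  obtain ⟨h1, h2⟩ := Sigma.mk.inj_iff.1 h
  have : V = W := congrArg Subtype.val h1
  subst this
  exact Sigma.ext rfl h2

theorem toSt_mem {p : Fin 4} (x : State p) : toSt x ∈ sStates p :=
  mem_sStates.2 (mem_sBlk.2 x.1.2)

theorem exists_toSt {p : Fin 4} {i : St} (h : i ∈ sStates p) : ∃ x : State p, toSt x = i := by
  obtain ⟨⟨V, hV⟩, m⟩ := i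
  exact ⟨⟨⟨V, mem_sBlk.1 (mem_sStates.1 h)⟩, m⟩, rfl⟩

/-- One class: a word inside the class whose product is a cycle on it. -/
theorem exists_class_word (p : Fin 4) : ∃ w : List (Fin 3 × St × St),
    (∀ t ∈ w, ShareAt t.1 t.2.1 t.2.2 ∧ t.2.1 ∈ sStates p ∧ t.2.2 ∈ sStates p) ∧
      (wordPerm w).IsCycleOn (sStates p : Set St) := by
  obtain ⟨σ, hσ, l, hl, rfl⟩ := exists_cycle_word p
  obtain ⟨w, hw, hagree⟩ : ∃ w : List (Fin 3 × St × St),
      (∀ t ∈ w, ShareAt t.1 t.2.1 t.2.2 ∧ t.2.1 ∈ sStates p ∧ t.2.2 ∈ sStates p) ∧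
        ∀ x : State p, wordPerm w (toSt x) = toSt (l.prod x) := by
    clear hσ
    induction l with
    | nil => exact ⟨[], fun t h => absurd h (List.not_mem_nil), fun x => by simp [wordPerm_nil]⟩
    | cons τ l ih =>
      obtain ⟨w, hw, hagree⟩ := ih fun τ' h => hl τ' (List.mem_cons_of_mem _ h)
      obtain ⟨x, y, hxy, rfl⟩ := hl τ List.mem_cons_self
      obtain ⟨J, hJ⟩ := exists_shareAt (i := toSt x) (j := toSt y) hxy
      refine ⟨(J, toSt x, toSt y) :: w, ?_, fun z => ?_⟩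
      · intro t ht
        rcases List.mem_cons.1 ht with rfl | ht
        · exact ⟨hJ, toSt_mem x, toSt_mem y⟩
        · exact hw t ht
      · rw [wordPerm_cons, Equiv.Perm.mul_apply, hagree, List.prod_cons, Equiv.Perm.mul_apply]
        exact ((toSt_injective p).swap_apply x y (l.prod z))
  refine ⟨w, hw, ?_⟩
  have hsc : ∀ n : ℕ, ∀ x : State p, (wordPerm w ^ n) (toSt x) = toSt ((l.prod ^ n) x) := by
    intro n
    induction n with
    | zero => intro x; rfl
    | succ n ih => intro x; rw [pow_succ', Equiv.Perm.mul_apply, ih, hagree, pow_succ',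
        Equiv.Perm.mul_apply]
  refine ⟨⟨fun i hi => ?_, (wordPerm w).injective.injOn, fun i hi => ?_⟩, fun i hi j hj => ?_⟩
  · obtain ⟨x, rfl⟩ := exists_toSt (Finset.mem_coe.1 hi)
    rw [hagree]; exact Finset.mem_coe.2 (toSt_mem _)
  · obtain ⟨x, rfl⟩ := exists_toSt (Finset.mem_coe.1 hi)
    exact ⟨toSt (l.prod⁻¹ x), Finset.mem_coe.2 (toSt_mem _), by simp [hagree]⟩
  · obtain ⟨x, rfl⟩ := exists_toSt (Finset.mem_coe.1 hi)
    obtain ⟨y, rfl⟩ := exists_toSt (Finset.mem_coe.1 hj)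
    obtain ⟨n, -, hn⟩ := (hσ.2 (Set.mem_univ x) (Set.mem_univ y)).exists_pow_eq'
    exact ⟨n, by rw [zpow_natCast, hsc, hn]⟩

/-- One periodic list of transpositions, each inside a junction level with nonzero labels, whose
product is a single cycle on every class. -/
theorem exists_word : ∃ w : List (Fin 3 × St × St),
    (∀ t ∈ w, ShareAt t.1 t.2.1 t.2.2 ∧ ∃ p, t.2.1 ∈ sStates p ∧ t.2.2 ∈ sStates p) ∧
      ∀ p, (wordPerm w).IsCycleOn (sStates p : Set St) := by
  choose w hw hc using exists_class_word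
  refine ⟨w 0 ++ w 1 ++ w 2 ++ w 3, ?_, fun p => ?_⟩
  · intro t ht
    simp only [List.mem_append] at ht
    rcases ht with ((ht | ht) | ht) | ht <;>
      exact ⟨(hw _ t ht).1, _, (hw _ t ht).2⟩
  have hfix : ∀ q, q ≠ p → ∀ x ∈ sStates p, wordPerm (w q) x = x := fun q hq x hx =>
    wordPerm_fix fun t ht => by
      refine ⟨fun e => hq ?_, fun e => hq ?_⟩
      · exact sBlk_disjoint (mem_sStates.1 (hw q t ht).2.1) (e ▸ mem_sStates.1 hx)
      · exact sBlk_disjoint (mem_sStates.1 (hw q t ht).2.2) (e ▸ mem_sStates.1 hx)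
  have hmaps : ∀ x ∈ sStates p, wordPerm (w p) x ∈ sStates p := fun x hx =>
    Finset.mem_coe.1 ((hc p).1.mapsTo (Finset.mem_coe.2 hx))
  have heq : ∀ x ∈ sStates p, wordPerm (w 0 ++ w 1 ++ w 2 ++ w 3) x = wordPerm (w p) x := by
    intro x hx
    have hwx := hmaps x hx
    simp only [wordPerm_append, Equiv.Perm.mul_apply]
    have a1 := fun h => hfix 1 h x hx
    have a2 := fun h => hfix 2 h x hx
    have a3 := fun h => hfix 3 h x hx
    have b0 := fun h => hfix 0 h _ hwx
    have b1 := fun h => hfix 1 h _ hwx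
    have b2 := fun h => hfix 2 h _ hwx
    clear hfix hw hc hmaps hwx hx
    obtain rfl | rfl | rfl | rfl : p = 0 ∨ p = 1 ∨ p = 2 ∨ p = 3 := by omega
    · rw [a3 (by decide), a2 (by decide), a1 (by decide)]
    · rw [a3 (by decide), a2 (by decide), b0 (by decide)]
    · rw [a3 (by decide), b1 (by decide), b0 (by decide)]
    · rw [b2 (by decide), b1 (by decide), b0 (by decide)]
  have hagree : Set.EqOn (wordPerm (w 0 ++ w 1 ++ w 2 ++ w 3)) (wordPerm (w p))
      (sStates p : Set St) := fun x hx => heq x (Finset.mem_coe.1 hx)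
  have hbij := hagree.bijOn_iff.2 (hc p).1
  refine ⟨hbij, fun x hx y hy => ?_⟩
  obtain ⟨n, -, hn⟩ := (hc p).exists_pow_eq (Finset.mem_coe.1 hx) (Finset.mem_coe.1 hy)
  have hpow : ∀ k : ℕ, (wordPerm (w 0 ++ w 1 ++ w 2 ++ w 3) ^ k) x = (wordPerm (w p) ^ k) x := by
    intro k
    induction k with
    | zero => rfl
    | succ k ih =>
      rw [pow_succ', Equiv.Perm.mul_apply, ih, pow_succ', Equiv.Perm.mul_apply]
      exact hagree (((hc p).1.perm_pow k).mapsTo hx)
  exact ⟨n, by rw [zpow_natCast, hpow, hn]⟩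

/-- Along a cycle the sum over one period is the sum over the class. -/
theorem orbit_sum {M : Type*} [AddCommMonoid M] {σ : Equiv.Perm St} {s : Finset St}
    (hσ : σ.IsCycleOn (s : Set St)) {x : St} (hx : x ∈ s) (f : St → M) :
    ∑ k ∈ Finset.range s.card, f ((σ ^ k) x) = ∑ i ∈ s, f i := by
  refine Finset.sum_bij (fun k _ => (σ ^ k) x) (fun k _ => ?_) (fun k hk l hl h => ?_)
    (fun i hi => ?_) (fun _ _ => rfl)
  · exact Finset.mem_coe.1 ((hσ.1.perm_pow k).mapsTo (Finset.mem_coe.2 hx))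
  · exact Nat.ModEq.eq_of_lt_of_lt ((hσ.pow_apply_eq_pow_apply hx).1 h) (Finset.mem_range.1 hk)
      (Finset.mem_range.1 hl)
  · obtain ⟨k, hk, rfl⟩ := hσ.exists_pow_eq hx hi
    exact ⟨k, Finset.mem_range.2 hk, rfl⟩

end Vale.Agent.P225.Count
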