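import Vale.Agent.P225.Alg.Control

/-!
P225: separation of finitely many levels.  The excursion generators act on the level `L` as
`κ L • (X L ⊗ₖ Y L)`; if the two numbers `κ² c_y`, `κ² c_x` separate the levels, their Lie closure
contains every family of trace-zero matrices.
-/

namespace Vale.Agent.P225.Alg

open Matrix
open scoped Kronecker

set_option linter.unusedSectionVars false

variable {K : Type*} [Field K] {ι : Type*} [Fintype ι] [DecidableEq ι] {m n : ι → Type*}
  [∀ L, Fintype (m L)] [∀ L, DecidableEq (m L)] [∀ L, Fintype (n L)] [∀ L, DecidableEq (n L)]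

/-- Families of matrices, one for each level. -/
abbrev Fam (K : Type*) (m : ι → Type*) := ∀ L, Matrix (m L) (m L) K

/-- Closed under levelwise commutators. -/
def FamLieClosed (G : Submodule K (Fam K fun L => m L × n L)) : Prop :=
  ∀ a ∈ G, ∀ b ∈ G, (fun L => a L * b L - b L * a L) ∈ G

/-- Spanned by its own levelwise commutators. -/
def FamPerfect (S : Submodule K (Fam K m)) : Prop :=
  S ≤ Submodule.span K {c | ∃ a ∈ S, ∃ b ∈ S, c = fun L => a L * b L - b L * a L}

/-- Levelwise scaled Kronecker product. -/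
def gk (μ : ι → K) : Fam K m →ₗ[K] Fam K n →ₗ[K] Fam K fun L => m L × n L :=
  LinearMap.mk₂ K (fun x y L => μ L • (x L ⊗ₖ y L))
    (fun a b c => funext fun L => by simp [add_kronecker, smul_add])
    (fun r a c => funext fun L => by simp [smul_kronecker, smul_comm r])
    (fun a b c => funext fun L => by simp [kronecker_add, smul_add])
    (fun r a c => funext fun L => by simp [kronecker_smul, smul_comm r])

@[simp] theorem gk_apply (μ : ι → K) (x : Fam K m) (y : Fam K n) (L : ι) :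
    gk μ x y L = μ L • (x L ⊗ₖ y L) := rfl

variable {G : Submodule K (Fam K fun L => m L × n L)}
  {Sx : Submodule K (Fam K m)} {Sy : Submodule K (Fam K n)}

/-- The multipliers whose generators all lie in `G`. -/
def mult (G : Submodule K (Fam K fun L => m L × n L)) (Sx : Submodule K (Fam K m))
    (Sy : Submodule K (Fam K n)) : Submodule K (ι → K) where
  carrier := {μ | ∀ x ∈ Sx, ∀ y ∈ Sy, gk μ x y ∈ G}
  add_mem' {μ ν} hμ hν x hx y hy := by
    convert G.add_mem (hμ x hx y hy) (hν x hx y hy) using 1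
    funext L; simp [add_smul]
  zero_mem' x hx y hy := by
    convert G.zero_mem using 1
    funext L; simp
  smul_mem' r μ hμ x hx y hy := by
    convert G.smul_mem r (hμ x hx y hy) using 1
    funext L; simp [mul_smul]

/-- Stability of the multipliers under `κ² c_y`. -/
theorem mult_casimir_right (hG : FamLieClosed G) (hx : FamPerfect Sx) {κ μ : ι → K}
    (hκ : κ ∈ mult G Sx Sy) (hμ : μ ∈ mult G Sx Sy) {α : Type*} (s : Finset α)
    (Y : α → Fam K n) (hY : ∀ k ∈ s, Y k ∈ Sy) (c : ι → K)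
    (hcas : ∀ L, ∑ k ∈ s, Y k L * Y k L = c L • 1) :
    (fun L => κ L ^ 2 * c L * μ L) ∈ mult G Sx Sy := by
  have hfirst : ∀ x ∈ Sx, gk (fun L => κ L ^ 2 * c L) x (fun _ => 1) ∈ G := by
    intro x hxS
    refine (Submodule.mem_comap (f := (gk (fun L => κ L ^ 2 * c L)).flip (fun _ => 1))).1 ?_
    refine Submodule.span_le.2 ?_ (hx hxS)
    rintro _ ⟨a, ha, b, hb, rfl⟩
    rw [SetLike.mem_coe, Submodule.mem_comap, LinearMap.flip_apply]
    have h := G.sum_mem fun k (hk : k ∈ s) =>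
      hG _ (hκ a ha _ (hY k hk)) _ (hκ b hb _ (hY k hk))
    convert h using 1
    funext L
    rw [Finset.sum_apply]
    simp only [gk_apply, smul_mul_smul_comm, ← mul_kronecker_mul, ← smul_sub]
    rw [← Finset.smul_sum, ← sq]
    simp only [← kron_apply, ← LinearMap.sub_apply, ← map_sub]
    rw [← map_sum, hcas L, map_smul, smul_smul]
  intro x hxS y hyS
  refine (Submodule.mem_comap (f := (gk (fun L => κ L ^ 2 * c L * μ L)).flip y)).1 ?_
  refine Submodule.span_le.2 ?_ (hx hxS)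
  rintro _ ⟨a, ha, b, hb, rfl⟩
  rw [SetLike.mem_coe, Submodule.mem_comap, LinearMap.flip_apply]
  convert hG _ (hfirst a ha) _ (hμ b hb y hyS) using 1
  funext L
  simp only [gk_apply, smul_mul_smul_comm, ← mul_kronecker_mul, one_mul, mul_one]
  rw [mul_comm (μ L), ← smul_sub]
  simp only [← kron_apply, ← LinearMap.sub_apply, ← map_sub]

/-- Stability of the multipliers under `κ² c_x`. -/
theorem mult_casimir_left (hG : FamLieClosed G) (hy : FamPerfect Sy) {κ μ : ι → K}
    (hκ : κ ∈ mult G Sx Sy) (hμ : μ ∈ mult G Sx Sy) {α : Type*} (s : Finset α)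
    (X : α → Fam K m) (hX : ∀ k ∈ s, X k ∈ Sx) (c : ι → K)
    (hcas : ∀ L, ∑ k ∈ s, X k L * X k L = c L • 1) :
    (fun L => κ L ^ 2 * c L * μ L) ∈ mult G Sx Sy := by
  have hsecond : ∀ y ∈ Sy, gk (fun L => κ L ^ 2 * c L) (fun _ => 1) y ∈ G := by
    intro y hyS
    refine (Submodule.mem_comap (f := gk (fun L => κ L ^ 2 * c L) (fun _ => 1))).1 ?_
    refine Submodule.span_le.2 ?_ (hy hyS)
    rintro _ ⟨a, ha, b, hb, rfl⟩
    rw [SetLike.mem_coe, Submodule.mem_comap]
    have h := G.sum_mem fun k (hk : k ∈ s) =>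
      hG _ (hκ _ (hX k hk) a ha) _ (hκ _ (hX k hk) b hb)
    convert h using 1
    funext L
    rw [Finset.sum_apply]
    simp only [gk_apply, smul_mul_smul_comm, ← mul_kronecker_mul, ← smul_sub]
    rw [← Finset.smul_sum, ← sq]
    simp only [← kron_apply, ← map_sub]
    rw [← LinearMap.sum_apply, ← map_sum, hcas L, map_smul, LinearMap.smul_apply, smul_smul]
  intro x hxS y hyS
  refine (Submodule.mem_comap (f := gk (fun L => κ L ^ 2 * c L * μ L) x)).1 ?_
  refine Submodule.span_le.2 ?_ (hy hyS)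
  rintro _ ⟨a, ha, b, hb, rfl⟩
  rw [SetLike.mem_coe, Submodule.mem_comap]
  convert hG _ (hsecond a ha) _ (hμ x hxS b hb) using 1
  funext L
  simp only [gk_apply, smul_mul_smul_comm, ← mul_kronecker_mul, one_mul, mul_one]
  rw [mul_comm (μ L), ← smul_sub]
  simp only [← kron_apply, ← map_sub]

/-- Interpolation: a space of functions stable under two multipliers separating the points
contains the restriction of each of its elements to a single point. -/
theorem restrict_mem_of_separating (V : Submodule K (ι → K)) (f h : ι → K)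
    (hf : ∀ μ ∈ V, f * μ ∈ V) (hh : ∀ μ ∈ V, h * μ ∈ V)
    (hsep : Function.Injective fun L => (f L, h L)) {μ : ι → K} (hμ : μ ∈ V) (L : ι) :
    (Pi.single L (μ L) : ι → K) ∈ V := by
  suffices H : ∀ t : Finset ι, L ∉ t → ∃ ν ∈ V, ν L = μ L ∧ ∀ L' ∈ t, ν L' = 0 by
    obtain ⟨ν, hν, hL, h0⟩ := H (Finset.univ.erase L) (Finset.notMem_erase _ _)
    convert hν using 1
    funext L'
    rcases eq_or_ne L' L with rfl | hne
    · rw [Pi.single_eq_same, hL]
    · rw [Pi.single_eq_of_ne hne, h0 L' (Finset.mem_erase.2 ⟨hne, Finset.mem_univ _⟩)]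
  intro t
  induction t using Finset.induction_on with
  | empty => exact fun _ => ⟨μ, hμ, rfl, fun _ h => absurd h (Finset.notMem_empty _)⟩
  | insert L' t hL' ih =>
    intro hmem
    rw [Finset.mem_insert, not_or] at hmem
    obtain ⟨ν, hν, hL, h0⟩ := ih hmem.2
    have hg : ∃ g : ι → K, (∀ μ ∈ V, g * μ ∈ V) ∧ g L ≠ g L' := by
      by_contra hcon
      push Not at hcon
      exact hmem.1 (hsep (Prod.ext (hcon f hf) (hcon h hh)))
    obtain ⟨g, hgV, hgne⟩ := hg
    have hd : g L - g L' ≠ 0 := sub_ne_zero.2 hgne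
    refine ⟨(g L - g L')⁻¹ • (g * ν - g L' • ν), V.smul_mem _ (V.sub_mem (hgV ν hν)
      (V.smul_mem _ hν)), ?_, ?_⟩
    · simp only [Pi.smul_apply, Pi.sub_apply, Pi.mul_apply, smul_eq_mul, ← sub_mul, hL]
      field_simp
    · intro M hM
      rcases Finset.mem_insert.1 hM with rfl | hM
      · simp
      · simp [h0 M hM]

/-- Evaluation of families at one level. -/
abbrev evalAt (L : ι) : Fam K m →ₗ[K] Matrix (m L) (m L) K := LinearMap.proj L

/-- The control lemma for finitely many levels. -/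
theorem traceless_fam_mem (hG : FamLieClosed G) (h2 : (2 : K) ≠ 0) (κ : ι → K)
    (hκ : ∀ L, κ L ≠ 0) (hgen : κ ∈ mult G Sx Sy) (hx : FamPerfect Sx) (hy : FamPerfect Sy)
    (hSx : ∀ L, Algebra.adjoin K ((Sx.map (evalAt L)) : Set (Matrix (m L) (m L) K)) = ⊤)
    (hSy : ∀ L, Algebra.adjoin K ((Sy.map (evalAt L)) : Set (Matrix (n L) (n L) K)) = ⊤)
    {α : Type*} (s : Finset α) (X : α → Fam K m) (hX : ∀ k ∈ s, X k ∈ Sx) (cx : ι → K)
    (hcx : ∀ L, ∑ k ∈ s, X k L * X k L = cx L • 1) (hcx0 : ∀ L, cx L ≠ 0)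
    {β : Type*} (t : Finset β) (Y : β → Fam K n) (hY : ∀ k ∈ t, Y k ∈ Sy) (cy : ι → K)
    (hcy : ∀ L, ∑ k ∈ t, Y k L * Y k L = cy L • 1) (hcy0 : ∀ L, cy L ≠ 0)
    (hsep : Function.Injective fun L => (κ L ^ 2 * cy L, κ L ^ 2 * cx L))
    (hcard : ∀ L, 3 ≤ Fintype.card (m L)) (hne : ∀ L, Nonempty (n L))
    (M : Fam K fun L => m L × n L) (hM : ∀ L, (M L).trace = 0) : M ∈ G := by
  have hM' : M = ∑ L, LinearMap.single K (fun L => Matrix (m L × n L) (m L × n L) K) L (M L) := by
    simp [Finset.univ_sum_single M]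
  rw [hM']
  refine G.sum_mem fun L _ => ?_
  let GV : Submodule K (Matrix (m L × n L) (m L × n L) K) :=
    G.comap (LinearMap.single K (fun L => Matrix (m L × n L) (m L × n L) K) L)
  change M L ∈ GV
  have hGV : IsLieClosed GV := by
    intro a ha b hb
    rw [Submodule.mem_comap] at ha hb ⊢
    convert hG _ ha _ hb using 1
    funext L'
    rcases eq_or_ne L' L with rfl | hne'
    · simp
    · simp [Pi.single_eq_of_ne hne']
  have hres := restrict_mem_of_separating (mult G Sx Sy) (fun L => κ L ^ 2 * cy L)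
    (fun L => κ L ^ 2 * cx L) (fun μ hμ => mult_casimir_right hG hx hgen hμ t Y hY cy hcy)
    (fun μ hμ => mult_casimir_left hG hy hgen hμ s X hX cx hcx) hsep hgen L
  have hgenL : ∀ x ∈ Sx.map (evalAt L), ∀ y ∈ Sy.map (evalAt L), x ⊗ₖ y ∈ GV := by
    rintro _ ⟨x, hx', rfl⟩ _ ⟨y, hy', rfl⟩
    rw [Submodule.mem_comap]
    convert G.smul_mem (κ L)⁻¹ (hres x hx' y hy') using 1
    funext L'
    rcases eq_or_ne L' L with rfl | hne'
    · simp [smul_smul, hκ L']
    · simp [Pi.single_eq_of_ne hne']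
  have hpx : IsPerfect (Sx.map (evalAt L)) := by
    rintro _ ⟨x, hx', rfl⟩
    refine Submodule.span_mono ?_ (Submodule.apply_mem_span_image_of_mem_span (evalAt L) (hx hx'))
    rintro _ ⟨_, ⟨a, ha, b, hb, rfl⟩, rfl⟩
    exact ⟨_, ⟨a, ha, rfl⟩, _, ⟨b, hb, rfl⟩, rfl⟩
  have hpy : IsPerfect (Sy.map (evalAt L)) := by
    rintro _ ⟨x, hx', rfl⟩
    refine Submodule.span_mono ?_ (Submodule.apply_mem_span_image_of_mem_span (evalAt L) (hy hx'))
    rintro _ ⟨_, ⟨a, ha, b, hb, rfl⟩, rfl⟩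
    exact ⟨_, ⟨a, ha, rfl⟩, _, ⟨b, hb, rfl⟩, rfl⟩
  obtain ⟨k, hk, hk0⟩ : ∃ k ∈ s, X k L ≠ 0 := by
    by_contra hcon
    push Not at hcon
    have h0 := hcx L
    rw [Finset.sum_eq_zero fun k hk => by rw [hcon k hk, mul_zero]] at h0
    have : Nonempty (m L) := Fintype.card_pos_iff.1 (by have := hcard L; omega)
    exact one_ne_zero ((smul_eq_zero.1 h0.symm).resolve_left (hcx0 L))
  obtain ⟨l, hl, hl0⟩ : ∃ l ∈ t, Y l L ≠ 0 := by
    by_contra hcon
    push Not at hcon
    have h0 := hcy L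
    rw [Finset.sum_eq_zero fun k hk => by rw [hcon k hk, mul_zero]] at h0
    have := hne L
    exact one_ne_zero ((smul_eq_zero.1 h0.symm).resolve_left (hcy0 L))
  exact traceless_mem_of_kronecker hGV hgenL h2 hpx hpy (hSx L) (hSy L) t (fun k => Y k L)
    (fun k hk => ⟨_, hY k hk, rfl⟩) (hcy0 L) (hcy L) ⟨_, hX k hk, rfl⟩ hk0 ⟨_, hY l hl, rfl⟩ hl0
    (hcard L) (hM L)

end Vale.Agent.P225.Alg
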