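import Mathlib

/-!
P225: monoids of matrices containing all transvections contain a signed permutation matrix for
every permutation, and transvections are exponentials.
-/

namespace Vale.Agent.P225.Alg

open Matrix

set_option linter.unusedSectionVars false
set_option linter.unusedSimpArgs false

variable {R : Type*} [CommRing R] {n : Type*} [Fintype n] [DecidableEq n]

/-- `1 + E_ij - E_ji - E_ii - E_jj` is a product of three transvections. -/
theorem transvection_swap {i j : n} (hij : i ≠ j) :
    transvection i j (1 : R) * transvection j i (-1 : R) * transvection i j (1 : R)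
      = 1 + single i j 1 - single j i 1 - single i i 1 - single j j 1 := by
  have h : (single j i (-1 : R) : Matrix n n R) = -single j i 1 := by rw [← single_neg]
  simp only [transvection, h, mul_add, add_mul, one_mul, mul_one, neg_mul, mul_neg,
    single_mul_single_same, single_mul_single_of_ne _ _ _ _ hij.symm]
  abel

/-- The signed permutation matrix of `σ` with signs `s`. -/
def signedPerm (σ : Equiv.Perm n) (s : n → R) : Matrix n n R :=
  Matrix.of fun a b => if a = σ b then s b else 0

theorem signedPerm_mul (σ τ : Equiv.Perm n) (s t : n → R) :
    signedPerm σ s * signedPerm τ t = signedPerm (σ * τ) fun b => s (τ b) * t b := by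
  ext a b
  rw [mul_apply, Finset.sum_eq_single (τ b)]
  · simp [signedPerm]
    by_cases h : a = σ (τ b) <;> simp [h]
  · intro c _ hc
    simp [signedPerm, hc]
  · simp

theorem signedPerm_one : signedPerm (1 : Equiv.Perm n) (fun _ => (1 : R)) = 1 := by
  ext a b
  simp [signedPerm, Matrix.one_apply]
  by_cases h : a = b <;> simp [h]

theorem transvection_swap_eq_signedPerm {i j : n} (hij : i ≠ j) :
    transvection i j (1 : R) * transvection j i (-1 : R) * transvection i j (1 : R)
      = signedPerm (Equiv.swap i j) fun b => if b = i then -1 else 1 := by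
  rw [transvection_swap hij]
  ext a b
  rcases eq_or_ne b i with rfl | hbi
  · rcases eq_or_ne a b with rfl | hab
    · simp [signedPerm, hij, hij.symm, Matrix.one_apply]
    · rcases eq_or_ne a j with rfl | haj
      · simp [signedPerm, hab, hab.symm, Matrix.one_apply]
      · simp [signedPerm, hab, hab.symm, haj, haj.symm, Matrix.one_apply]
  · rcases eq_or_ne b j with rfl | hbj
    · rcases eq_or_ne a i with rfl | hai
      · simp [signedPerm, hij, hij.symm, Matrix.one_apply]
      · rcases eq_or_ne a b with rfl | hab
        · simp [signedPerm, hij, hij.symm, Matrix.one_apply]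
        · simp [signedPerm, hai, hai.symm, hab, hab.symm, hij, hij.symm, Matrix.one_apply]
    · simp [signedPerm, hbi, hbi.symm, hbj, hbj.symm, Matrix.one_apply,
        Equiv.swap_apply_of_ne_of_ne hbi hbj]

/-- A monoid containing all transvections contains a signed permutation matrix for every
permutation, with signs in `{1, -1}` and equal to `1` outside the support. -/
theorem exists_signedPerm_mem (S : Submonoid (Matrix n n R))
    (hS : ∀ i j : n, i ≠ j → ∀ c : R, transvection i j c ∈ S) (σ : Equiv.Perm n) :
    ∃ s : n → R, (∀ b, s b = 1 ∨ s b = -1) ∧ signedPerm σ s ∈ S := by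
  refine Equiv.Perm.swap_induction_on (α := n) σ
    ⟨fun _ => 1, fun _ => Or.inl rfl, signedPerm_one (R := R) (n := n) ▸ S.one_mem⟩ ?_
  rintro σ i j hij ⟨s, hs, hmem⟩
  refine ⟨fun b => (if σ b = i then -1 else 1) * s b, fun b => ?_, ?_⟩
  · dsimp only
    rcases hs b with h | h <;> split_ifs <;> simp [h]
  · have := S.mul_mem (S.mul_mem (S.mul_mem (hS i j hij 1) (hS j i hij.symm (-1))) (hS i j hij 1))
      hmem
    rwa [transvection_swap_eq_signedPerm hij, signedPerm_mul] at this

end Vale.Agent.P225.Alg
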