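import Vale.Agent.P225.Alg.Levels

/-!
P225: the hypotheses of the control lemma for spin representations.  An `sl₂` triple whose diagonal
element has distinct entries and whose raising and lowering elements have nonzero adjacent entries
generates all matrices, and two such triples in the two slots of a Kronecker product do the same.
-/

namespace Vale.Agent.P225.Alg

open Matrix
open scoped Kronecker

set_option linter.unusedSectionVars false

variable {K : Type*} [Field K]

/-- An algebra of matrices containing all diagonal units and all adjacent units is everything. -/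
theorem eq_top_of_diag_adjacent {d : ℕ} (A : Subalgebra K (Matrix (Fin (d + 1)) (Fin (d + 1)) K))
    (hdiag : ∀ i, Matrix.single i i (1 : K) ∈ A)
    (hup : ∀ i : Fin d, Matrix.single i.castSucc i.succ (1 : K) ∈ A)
    (hdown : ∀ i : Fin d, Matrix.single i.succ i.castSucc (1 : K) ∈ A) : A = ⊤ := by
  have hto : ∀ i : Fin (d + 1), Matrix.single 0 i (1 : K) ∈ A ∧ Matrix.single i 0 (1 : K) ∈ A := by
    intro i
    induction i using Fin.induction with
    | zero => exact ⟨hdiag 0, hdiag 0⟩
    | succ i ih =>
      constructor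
      · have := A.mul_mem ih.1 (hup i)
        rwa [single_mul_single_same, one_mul] at this
      · have := A.mul_mem (hdown i) ih.2
        rwa [single_mul_single_same, one_mul] at this
  rw [eq_top_iff]
  intro M _
  rw [matrix_eq_sum_single M]
  refine A.sum_mem fun i _ => A.sum_mem fun j _ => ?_
  have h := A.smul_mem (A.mul_mem (hto i).2 (hto j).1) (M i j)
  rwa [single_mul_single_same, one_mul, smul_single, smul_eq_mul, mul_one] at h

/-- A diagonal matrix with distinct entries gives the diagonal units. -/
theorem single_self_mem {m : Type*} [Fintype m] [DecidableEq m]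
    (A : Subalgebra K (Matrix m m K)) {h : m → K} (hh : Function.Injective h)
    (hmem : diagonal h ∈ A) (i : m) : Matrix.single i i (1 : K) ∈ A := by
  suffices H : ∀ t : Finset m, i ∉ t → ∃ v : m → K, diagonal v ∈ A ∧ v i = 1 ∧ ∀ j ∈ t, v j = 0 by
    obtain ⟨v, hv, hi, h0⟩ := H (Finset.univ.erase i) (Finset.notMem_erase _ _)
    convert hv using 1
    rw [← diagonal_single]
    congr 1
    funext j
    rcases eq_or_ne j i with rfl | hj
    · rw [Pi.single_eq_same, hi]
    · rw [Pi.single_eq_of_ne hj, h0 j (Finset.mem_erase.2 ⟨hj, Finset.mem_univ _⟩)]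
  intro t
  induction t using Finset.induction_on with
  | empty => exact fun _ => ⟨fun _ => 1, by simp [A.one_mem], rfl, fun _ h => absurd h (by simp)⟩
  | insert j t _ ih =>
    intro hmem'
    rw [Finset.mem_insert, not_or] at hmem'
    obtain ⟨v, hv, hi, h0⟩ := ih hmem'.2
    have hd : h i - h j ≠ 0 := sub_ne_zero.2 fun e => hmem'.1 (hh e)
    refine ⟨fun l => (h i - h j)⁻¹ * ((h l - h j) * v l), ?_, ?_, ?_⟩
    · have := A.smul_mem (A.mul_mem (A.sub_mem hmem (A.smul_mem A.one_mem (h j))) hv)
        (h i - h j)⁻¹
      convert this using 1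
      rw [← diagonal_one, ← diagonal_smul, diagonal_sub, diagonal_mul_diagonal, ← diagonal_smul]
      congr 1
      funext l
      simp
    · simp only [hi, mul_one]
      exact inv_mul_cancel₀ hd
    · intro l hl
      rcases Finset.mem_insert.1 hl with rfl | hl
      · simp
      · simp [h0 l hl]

/-- An `sl₂` triple of spin type. -/
structure SpinTriple (d : ℕ) (h : Fin (d + 1) → K)
    (E F : Matrix (Fin (d + 1)) (Fin (d + 1)) K) : Prop where
  inj : Function.Injective h
  up : ∀ i : Fin d, E i.castSucc i.succ ≠ 0
  down : ∀ i : Fin d, F i.succ i.castSucc ≠ 0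
  top : ∀ k, E k 0 = 0
  lieEF : E * F - F * E = diagonal h
  lieHE : diagonal h * E - E * diagonal h = (2 : K) • E
  lieHF : diagonal h * F - F * diagonal h = -((2 : K) • F)

namespace SpinTriple

variable {d : ℕ} {h : Fin (d + 1) → K} {E F : Matrix (Fin (d + 1)) (Fin (d + 1)) K}

/-- A triple generates all matrices. -/
theorem adjoin_eq_top (T : SpinTriple d h E F) :
    Algebra.adjoin K ({diagonal h, E, F} : Set (Matrix (Fin (d + 1)) (Fin (d + 1)) K)) = ⊤ := by
  set A := Algebra.adjoin K ({diagonal h, E, F} : Set (Matrix (Fin (d + 1)) (Fin (d + 1)) K))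
  have hd : ∀ i, Matrix.single i i (1 : K) ∈ A := single_self_mem A T.inj
    (Algebra.subset_adjoin (by simp))
  have hentry : ∀ M ∈ A, ∀ i j, M i j ≠ 0 → Matrix.single i j (1 : K) ∈ A := by
    intro M hM i j hij
    have := A.smul_mem (A.mul_mem (A.mul_mem (hd i) hM) (hd j)) (M i j)⁻¹
    rwa [single_mul_mul_single, one_mul, mul_one, smul_single, smul_eq_mul,
      inv_mul_cancel₀ hij] at this
  exact eq_top_of_diag_adjacent A hd
    (fun i => hentry E (Algebra.subset_adjoin (by simp)) _ _ (T.up i))
    (fun i => hentry F (Algebra.subset_adjoin (by simp)) _ _ (T.down i))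

/-- The Casimir element of a triple is the scalar `h₀ (h₀ + 2)`. -/
theorem casimir (T : SpinTriple d h E F) :
    diagonal h * diagonal h + (2 : K) • (E * F + F * E) = (h 0 * (h 0 + 2)) • 1 := by
  set D := diagonal h
  set Z := D * D + (2 : K) • (E * F + F * E) with hZ
  have hEF : E * F = F * E + D := eq_add_of_sub_eq' T.lieEF
  have hDE : D * E = E * D + (2 : K) • E := eq_add_of_sub_eq' T.lieHE
  have hDF : D * F = F * D - (2 : K) • F := by
    rw [sub_eq_add_neg]; exact eq_add_of_sub_eq' T.lieHF
  have cD : D * Z = Z * D := by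
    have e1 : D * (E * F) = E * F * D := by
      rw [← mul_assoc, hDE, add_mul, mul_assoc, hDF, mul_sub, mul_smul_comm, smul_mul_assoc,
        sub_add_cancel, mul_assoc]
    have e2 : D * (F * E) = F * E * D := by
      rw [← mul_assoc, hDF, sub_mul, mul_assoc, hDE, mul_add, mul_smul_comm, smul_mul_assoc,
        add_sub_cancel_right, mul_assoc]
    simp only [hZ, mul_add, add_mul, mul_smul_comm, smul_mul_assoc, e1, e2, mul_assoc]
  have cE : E * Z = Z * E := by
    rw [← sub_eq_zero]
    calc E * Z - Z * E
        = (2 : K) • (E * (E * F - F * E) + (E * F - F * E) * E)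
            - ((D * E - E * D) * D + D * (D * E - E * D))
          + (4 : K) • (E * (F * E) - (E * F) * E) := by
          simp only [hZ, mul_add, add_mul, mul_sub, sub_mul, mul_smul_comm, smul_mul_assoc,
            smul_add, smul_sub, mul_assoc]
          module
      _ = 0 := by
          rw [T.lieEF, T.lieHE, mul_assoc, sub_self, smul_zero, add_zero, smul_mul_assoc,
            mul_smul_comm]
          module
  have cF : F * Z = Z * F := by
    rw [← sub_eq_zero]
    calc F * Z - Z * F
        = -((2 : K) • (F * (E * F - F * E) + (E * F - F * E) * F))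
            - ((D * F - F * D) * D + D * (D * F - F * D))
          + (4 : K) • (F * (E * F) - (F * E) * F) := by
          simp only [hZ, mul_add, add_mul, mul_sub, sub_mul, mul_smul_comm, smul_mul_assoc,
            smul_add, smul_sub, mul_assoc]
          module
      _ = 0 := by
          rw [T.lieEF, T.lieHF, mul_assoc, sub_self, smul_zero, add_zero, neg_mul, mul_neg,
            smul_mul_assoc, mul_smul_comm]
          module
  have hcomm : ∀ M : Matrix (Fin (d + 1)) (Fin (d + 1)) K, M * Z = Z * M := by
    intro M
    have hM : M ∈ Algebra.adjoin K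
        ({D, E, F} : Set (Matrix (Fin (d + 1)) (Fin (d + 1)) K)) := T.adjoin_eq_top ▸ Algebra.mem_top
    induction hM using Algebra.adjoin_induction with
    | mem x hx =>
      rcases hx with rfl | rfl | rfl
      exacts [cD, cE, cF]
    | algebraMap r => exact Algebra.commutes r Z
    | add x y _ _ hx hy => rw [add_mul x y Z, mul_add Z x y, hx, hy]
    | mul x y _ _ hx hy => rw [mul_assoc, hy, ← mul_assoc, hx, mul_assoc]
  have hscal : ∀ i j, Z i j = (Z 0 0 • (1 : Matrix (Fin (d + 1)) (Fin (d + 1)) K)) i j := by
    intro i j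
    have e := congrFun (congrFun (hcomm (Matrix.single 0 i 1)) 0) j
    rw [single_mul_apply_same, one_mul] at e
    rcases eq_or_ne i j with rfl | hij
    · rw [mul_single_apply_same, mul_one] at e
      simp [e]
    · rw [mul_single_apply_of_ne _ _ _ _ _ (Ne.symm hij)] at e
      simp [e, hij]
  rw [Matrix.ext hscal]
  congr 1
  have hFE : (F * E) 0 0 = 0 := by simp [mul_apply, T.top]
  rw [hZ, hEF]
  simp [D, Matrix.add_apply, hFE]
  ring

end SpinTriple

/-- Generators of the two slots generate the Kronecker product. -/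
theorem adjoin_kronecker_eq_top {m n : Type*} [Fintype m] [DecidableEq m] [Fintype n]
    [DecidableEq n] {S : Set (Matrix m m K)} {T : Set (Matrix n n K)}
    (hS : Algebra.adjoin K S = ⊤) (hT : Algebra.adjoin K T = ⊤) :
    Algebra.adjoin K ((fun x => x ⊗ₖ (1 : Matrix n n K)) '' S
      ∪ (fun y => (1 : Matrix m m K) ⊗ₖ y) '' T) = ⊤ := by
  set A := Algebra.adjoin K ((fun x => x ⊗ₖ (1 : Matrix n n K)) '' S
      ∪ (fun y => (1 : Matrix m m K) ⊗ₖ y) '' T)
  have hl : ∀ x : Matrix m m K, x ⊗ₖ (1 : Matrix n n K) ∈ A := by
    intro x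
    have hx : x ∈ Algebra.adjoin K S := hS ▸ Algebra.mem_top
    induction hx using Algebra.adjoin_induction with
    | mem x hx => exact Algebra.subset_adjoin (Or.inl ⟨x, hx, rfl⟩)
    | algebraMap r =>
      rw [Algebra.algebraMap_eq_smul_one, smul_kronecker, one_kronecker_one]
      exact A.smul_mem A.one_mem r
    | add x y _ _ hx hy => rw [add_kronecker]; exact A.add_mem hx hy
    | mul x y _ _ hx hy =>
      rw [← one_mul (1 : Matrix n n K), mul_kronecker_mul]; exact A.mul_mem hx hy
  have hr : ∀ y : Matrix n n K, (1 : Matrix m m K) ⊗ₖ y ∈ A := by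
    intro y
    have hy : y ∈ Algebra.adjoin K T := hT ▸ Algebra.mem_top
    induction hy using Algebra.adjoin_induction with
    | mem y hy => exact Algebra.subset_adjoin (Or.inr ⟨y, hy, rfl⟩)
    | algebraMap r =>
      rw [Algebra.algebraMap_eq_smul_one, kronecker_smul, one_kronecker_one]
      exact A.smul_mem A.one_mem r
    | add x y _ _ hx hy => rw [kronecker_add]; exact A.add_mem hx hy
    | mul x y _ _ hx hy =>
      rw [← one_mul (1 : Matrix m m K), mul_kronecker_mul]; exact A.mul_mem hx hy
  rw [eq_top_iff]
  intro M _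
  rw [matrix_eq_sum_single M]
  refine A.sum_mem fun ⟨i, p⟩ _ => A.sum_mem fun ⟨j, q⟩ _ => ?_
  have h := A.smul_mem (A.mul_mem (hl (Matrix.single i j 1)) (hr (Matrix.single p q 1)))
    (M (i, p) (j, q))
  rwa [← mul_kronecker_mul, mul_one, one_mul, single_kronecker_single, mul_one, smul_single,
    smul_eq_mul, mul_one] at h

end Vale.Agent.P225.Alg
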