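import Mathlib

/-!
P225 algebraic core (helper27): the spin `a/2` matrices of `sl₂` in the monomial basis
`e_p = X^p Y^(a-p)` of binary forms of degree `a`, indexed by `p : Fin (a+1)`.
-/

namespace Vale.Agent.P225.Alg

open Matrix

/-- `H e_p = (2p - a) e_p`. -/
def spinH (a : ℕ) : Matrix (Fin (a + 1)) (Fin (a + 1)) ℂ :=
  diagonal fun p => 2 * (p : ℕ) - (a : ℂ)

/-- `E e_p = (a - p) e_{p+1}`. -/
def spinE (a : ℕ) : Matrix (Fin (a + 1)) (Fin (a + 1)) ℂ :=
  Matrix.of fun q p => if (q : ℕ) = p + 1 then (a : ℂ) - (p : ℕ) else 0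

/-- `F e_p = p e_{p-1}`. -/
def spinF (a : ℕ) : Matrix (Fin (a + 1)) (Fin (a + 1)) ℂ :=
  Matrix.of fun q p => if (q : ℕ) + 1 = p then ((p : ℕ) : ℂ) else 0

theorem spinH_injective (a : ℕ) :
    Function.Injective (fun p : Fin (a + 1) => 2 * (p : ℕ) - (a : ℂ)) := by
  intro p q h
  have h' : ((p : ℕ) : ℂ) = (q : ℕ) := by
    have : 2 * ((p : ℕ) : ℂ) - a = 2 * ((q : ℕ) : ℂ) - a := h
    linear_combination this / 2
  exact Fin.ext (by exact_mod_cast h')

theorem spinE_ne_zero (a : ℕ) (q p : Fin (a + 1)) (h : (q : ℕ) = p + 1) : spinE a q p ≠ 0 := by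
  have hp : (p : ℕ) < a := by omega
  simp only [spinE, of_apply, h, ↓reduceIte, sub_ne_zero]
  exact_mod_cast hp.ne'

theorem spinF_ne_zero (a : ℕ) (q p : Fin (a + 1)) (h : (q : ℕ) + 1 = p) : spinF a q p ≠ 0 := by
  simp only [spinF, of_apply, h, ↓reduceIte]
  exact_mod_cast (by omega : (p : ℕ) ≠ 0)

theorem spinE_eq_zero (a : ℕ) (q p : Fin (a + 1)) (h : (q : ℕ) ≠ p + 1) : spinE a q p = 0 := by
  simp [spinE, h]

theorem spinF_eq_zero (a : ℕ) (q p : Fin (a + 1)) (h : (q : ℕ) + 1 ≠ p) : spinF a q p = 0 := by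
  simp [spinF, h]

theorem mul_spinE_apply {ι : Type*} {a : ℕ} (M : Matrix ι (Fin (a + 1)) ℂ) (i : ι)
    (p : Fin (a + 1)) :
    (M * spinE a) i p =
      if h : (p : ℕ) < a then M i ⟨p + 1, by omega⟩ * ((a : ℂ) - (p : ℕ)) else 0 := by
  rw [Matrix.mul_apply]
  split_ifs with h
  · rw [Finset.sum_eq_single (⟨p + 1, by omega⟩ : Fin (a + 1))]
    · simp [spinE]
    · intro b _ hb
      rw [spinE_eq_zero a b p (fun hbp => hb (Fin.ext hbp)), mul_zero]
    · simp
  · refine Finset.sum_eq_zero fun b _ => ?_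
    rw [spinE_eq_zero a b p (by omega), mul_zero]

theorem mul_spinF_apply {ι : Type*} {a : ℕ} (M : Matrix ι (Fin (a + 1)) ℂ) (i : ι)
    (p : Fin (a + 1)) :
    (M * spinF a) i p =
      if 0 < (p : ℕ) then M i ⟨p - 1, by omega⟩ * ((p : ℕ) : ℂ) else 0 := by
  rw [Matrix.mul_apply]
  split_ifs with h
  · rw [Finset.sum_eq_single (⟨p - 1, by omega⟩ : Fin (a + 1))]
    · have : (p : ℕ) - 1 + 1 = p := by omega
      simp [spinF, this]
    · intro b _ hb
      rw [spinF_eq_zero a b p (fun hbp => hb (Fin.ext (by simp only; omega))), mul_zero]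
    · simp
  · refine Finset.sum_eq_zero fun b _ => ?_
    rw [spinF_eq_zero a b p (by omega), mul_zero]

theorem spinE_mul_spinF (a : ℕ) :
    spinE a * spinF a = diagonal fun p : Fin (a + 1) => ((p : ℕ) : ℂ) * ((a : ℂ) - (p : ℕ) + 1) := by
  ext q p
  rw [mul_spinF_apply]
  split_ifs with h
  · by_cases hq : q = p
    · subst hq
      have h1 : (q : ℕ) = (q : ℕ) - 1 + 1 := by omega
      simp only [spinE, of_apply, diagonal_apply_eq]
      rw [if_pos h1, Nat.cast_sub (by omega : 1 ≤ (q : ℕ))]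
      push_cast
      ring
    · have hq' : (q : ℕ) ≠ p := fun e => hq (Fin.ext e)
      rw [spinE_eq_zero a q _ (by simp only; omega), diagonal_apply_ne _ hq, zero_mul]
  · by_cases hq : q = p
    · subst hq
      have : (q : ℕ) = 0 := by omega
      simp [this]
    · rw [diagonal_apply_ne _ hq]

theorem spinF_mul_spinE (a : ℕ) :
    spinF a * spinE a = diagonal fun p : Fin (a + 1) => (((p : ℕ) : ℂ) + 1) * ((a : ℂ) - (p : ℕ)) := by
  ext q p
  rw [mul_spinE_apply]
  split_ifs with h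
  · by_cases hq : q = p
    · subst hq
      simp [spinF]
    · have hq' : (q : ℕ) ≠ p := fun e => hq (Fin.ext e)
      rw [spinF_eq_zero a q _ (by simp only; omega), diagonal_apply_ne _ hq, zero_mul]
  · by_cases hq : q = p
    · subst hq
      have : (q : ℕ) = a := by omega
      simp [this]
    · rw [diagonal_apply_ne _ hq]

theorem spin_lie_EF (a : ℕ) : spinE a * spinF a - spinF a * spinE a = spinH a := by
  rw [spinE_mul_spinF, spinF_mul_spinE, diagonal_sub, spinH]
  congr 1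
  ext p
  ring

theorem spin_lie_HE (a : ℕ) :
    spinH a * spinE a - spinE a * spinH a = (2 : ℂ) • spinE a := by
  ext q p
  by_cases h : (q : ℕ) = p + 1
  · simp [spinH, spinE, h]
    ring
  · simp [spinH, spinE, h]

theorem spin_lie_HF (a : ℕ) :
    spinH a * spinF a - spinF a * spinH a = -((2 : ℂ) • spinF a) := by
  ext q p
  by_cases h : (q : ℕ) + 1 = p
  · have hp : ((p : ℕ) : ℂ) = (q : ℕ) + 1 := by exact_mod_cast h.symm
    simp [spinH, spinF, h, hp]
    ring
  · simp [spinH, spinF, h]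

/-- The Casimir element `H² + 2EF + 2FE` is the scalar `a(a+2)`. -/
theorem spin_casimir (a : ℕ) :
    spinH a * spinH a + (2 : ℂ) • (spinE a * spinF a + spinF a * spinE a) =
      ((a : ℂ) * (a + 2)) • (1 : Matrix (Fin (a + 1)) (Fin (a + 1)) ℂ) := by
  rw [spinE_mul_spinF, spinF_mul_spinE, spinH, diagonal_mul_diagonal, diagonal_add,
    ← diagonal_smul, diagonal_add, smul_one_eq_diagonal]
  congr 1
  ext p
  simp
  ring

end Vale.Agent.P225.Alg
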