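import Vale.Agent.P225.Alg.Sl2

/-!
P225: the control lemma for the levels `(a, b)`, `a, b ≥ 1`, of a junction, with `so₄ = sl₂ ⊕ sl₂`
acting on `V_a ⊗ V_a` in each factor, and the descent from complex to real matrices.
-/

namespace Vale.Agent.P225.Alg

open Matrix
open scoped Kronecker

set_option linter.unusedSectionVars false

/-- An element acting in slot `0` or `1` of `V_a ⊗ V_a`, on every level. -/
def slot {ι : Type*} (a : ι → ℕ) (X : ∀ d : ℕ, Matrix (Fin (d + 1)) (Fin (d + 1)) ℂ) (i : Fin 2) :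
    Fam ℂ fun L => Fin (a L + 1) × Fin (a L + 1) :=
  fun L => if i = 0 then X (a L) ⊗ₖ 1 else 1 ⊗ₖ X (a L)

/-- The six generators of one factor. -/
def gens (h : ∀ d : ℕ, Fin (d + 1) → ℂ) (E F : ∀ d : ℕ, Matrix (Fin (d + 1)) (Fin (d + 1)) ℂ)
    {ι : Type*} (a : ι → ℕ) : Fin 2 × Fin 3 → Fam ℂ fun L => Fin (a L + 1) × Fin (a L + 1) :=
  fun p => slot a (![fun d => diagonal (h d), E, F] p.2) p.1

variable {h : ∀ d : ℕ, Fin (d + 1) → ℂ} {E F : ∀ d : ℕ, Matrix (Fin (d + 1)) (Fin (d + 1)) ℂ}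
  {ι : Type*} {a b : ι → ℕ}

theorem slot_bracket (a : ι → ℕ) (X Y : ∀ d : ℕ, Matrix (Fin (d + 1)) (Fin (d + 1)) ℂ) (i : Fin 2) :
    (fun L => slot a X i L * slot a Y i L - slot a Y i L * slot a X i L)
      = slot a (fun d => X d * Y d - Y d * X d) i := by
  funext L
  unfold slot
  split
  · rw [← mul_kronecker_mul, ← mul_kronecker_mul, mul_one, ← kron_apply, ← kron_apply, ← kron_apply,
      map_sub, LinearMap.sub_apply]
  · rw [← mul_kronecker_mul, ← mul_kronecker_mul, mul_one, ← kron_apply, ← kron_apply, ← kron_apply,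
      map_sub]

theorem slot_smul (a : ι → ℕ) (r : ℂ) (X : ∀ d : ℕ, Matrix (Fin (d + 1)) (Fin (d + 1)) ℂ)
    (i : Fin 2) : slot a (fun d => r • X d) i = r • slot a X i := by
  funext L
  simp only [slot, Pi.smul_apply]
  split <;> simp [smul_kronecker, kronecker_smul]

theorem gens_perfect (T : ∀ d, SpinTriple d (h d) (E d) (F d)) :
    FamPerfect (Submodule.span ℂ (Set.range (gens h E F a))) := by
  set S := Submodule.span ℂ (Set.range (gens h E F a))
  have hmem : ∀ p, gens h E F a p ∈ S := fun p => Submodule.subset_span ⟨p, rfl⟩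
  refine Submodule.span_le.2 ?_
  rintro _ ⟨⟨i, j⟩, rfl⟩
  have hbr : ∀ j j' : Fin 3, (fun L => gens h E F a (i, j) L * gens h E F a (i, j') L
      - gens h E F a (i, j') L * gens h E F a (i, j) L) ∈ Submodule.span ℂ
        {c | ∃ x ∈ S, ∃ y ∈ S, c = fun L => x L * y L - y L * x L} :=
    fun j j' => Submodule.subset_span ⟨_, hmem (i, j), _, hmem (i, j'), rfl⟩
  fin_cases j
  · have e := hbr 1 2
    simp only [gens] at e
    rw [slot_bracket, show (fun d => ![fun d => diagonal (h d), E, F] 1 d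
      * ![fun d => diagonal (h d), E, F] 2 d - ![fun d => diagonal (h d), E, F] 2 d
      * ![fun d => diagonal (h d), E, F] 1 d) = fun d => diagonal (h d) from
      funext fun d => (T d).lieEF] at e
    exact e
  · have e := hbr 0 1
    simp only [gens] at e
    rw [slot_bracket, show (fun d => ![fun d => diagonal (h d), E, F] 0 d
      * ![fun d => diagonal (h d), E, F] 1 d - ![fun d => diagonal (h d), E, F] 1 d
      * ![fun d => diagonal (h d), E, F] 0 d) = fun d => (2 : ℂ) • E d from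
      funext fun d => (T d).lieHE, slot_smul] at e
    exact (Submodule.smul_mem_iff _ two_ne_zero).1 e
  · have e := hbr 0 2
    simp only [gens] at e
    rw [slot_bracket, show (fun d => ![fun d => diagonal (h d), E, F] 0 d
      * ![fun d => diagonal (h d), E, F] 2 d - ![fun d => diagonal (h d), E, F] 2 d
      * ![fun d => diagonal (h d), E, F] 0 d) = fun d => (-2 : ℂ) • F d from
      funext fun d => (T d).lieHF.trans (neg_smul _ _).symm, slot_smul] at e
    exact (Submodule.smul_mem_iff _ (neg_ne_zero.2 two_ne_zero)).1 e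

theorem gens_adjoin (T : ∀ d, SpinTriple d (h d) (E d) (F d)) (L : ι) :
    Algebra.adjoin ℂ ((Submodule.span ℂ (Set.range (gens h E F a))).map (evalAt L) :
      Set (Matrix (Fin (a L + 1) × Fin (a L + 1)) (Fin (a L + 1) × Fin (a L + 1)) ℂ)) = ⊤ := by
  rw [eq_top_iff, ← adjoin_kronecker_eq_top (T (a L)).adjoin_eq_top (T (a L)).adjoin_eq_top]
  refine Algebra.adjoin_mono ?_
  have hmem : ∀ p, gens h E F a p L ∈ (Submodule.span ℂ (Set.range (gens h E F a))).map (evalAt L) :=
    fun p => ⟨_, Submodule.subset_span ⟨p, rfl⟩, rfl⟩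
  rintro _ (⟨x, hx, rfl⟩ | ⟨x, hx, rfl⟩) <;> rcases hx with rfl | rfl | rfl
  exacts [hmem (0, 0), hmem (0, 1), hmem (0, 2), hmem (1, 0), hmem (1, 1), hmem (1, 2)]

/-- Three elements of the span whose squares sum to the Casimir scalar. -/
theorem gens_casimir (T : ∀ d, SpinTriple d (h d) (E d) (F d)) (h0 : ∀ d, h d 0 = d) :
    ∃ X : Fin 3 → Fam ℂ fun L => Fin (a L + 1) × Fin (a L + 1),
      (∀ k, X k ∈ Submodule.span ℂ (Set.range (gens h E F a))) ∧
      ∀ L, ∑ k, X k L * X k L = ((a L : ℂ) * (a L + 2)) • 1 := by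
  refine ⟨![gens h E F a (0, 0), gens h E F a (0, 1) + gens h E F a (0, 2),
    Complex.I • (gens h E F a (0, 1) - gens h E F a (0, 2))], fun k => ?_, fun L => ?_⟩
  · have hmem : ∀ p, gens h E F a p ∈ Submodule.span ℂ (Set.range (gens h E F a)) :=
      fun p => Submodule.subset_span ⟨p, rfl⟩
    fin_cases k <;> simp only [Fin.zero_eta, Fin.mk_one, Fin.reduceFinMk, Matrix.cons_val_zero, Matrix.cons_val_one, Matrix.cons_val]
    exacts [hmem _, Submodule.add_mem _ (hmem _) (hmem _),
      Submodule.smul_mem _ _ (Submodule.sub_mem _ (hmem _) (hmem _))]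
  · have hc := (T (a L)).casimir
    rw [h0] at hc
    have hI : Complex.I * Complex.I = -1 := Complex.I_mul_I
    rw [Fin.sum_univ_three]
    simp only [Matrix.cons_val_zero, Matrix.cons_val_one, Matrix.cons_val, Pi.add_apply,
      Pi.smul_apply, Pi.sub_apply, smul_mul_smul_comm, hI, gens, slot, ↓reduceIte]
    calc _ = (diagonal (h (a L)) * diagonal (h (a L))
          + (2 : ℂ) • (E (a L) * F (a L) + F (a L) * E (a L)))
            ⊗ₖ (1 : Matrix (Fin (a L + 1)) (Fin (a L + 1)) ℂ) := by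
          simp only [← kron_apply, ← LinearMap.sub_apply, ← map_sub]
          simp only [kron_apply, ← mul_kronecker_mul, mul_one, ← smul_kronecker, ← add_kronecker]
          congr 1
          simp only [mul_add, add_mul, mul_sub, sub_mul]
          module
      _ = _ := by rw [hc, smul_kronecker, one_kronecker_one]

/-- The control lemma for the levels `(a L, b L)` of one junction. -/
theorem spin_traceless_mem [Fintype ι] [DecidableEq ι] (T : ∀ d, SpinTriple d (h d) (E d) (F d))
    (h0 : ∀ d, h d 0 = d) (ha : ∀ L, 1 ≤ a L) (hb : ∀ L, 1 ≤ b L) (κ : ι → ℂ)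
    (hκ : ∀ L, κ L ≠ 0)
    (hsep : Function.Injective fun L =>
      (κ L ^ 2 * ((b L : ℂ) * (b L + 2)), κ L ^ 2 * ((a L : ℂ) * (a L + 2))))
    (G : Submodule ℂ (Fam ℂ fun L =>
      (Fin (a L + 1) × Fin (a L + 1)) × (Fin (b L + 1) × Fin (b L + 1))))
    (hG : FamLieClosed G) (hgen : ∀ p q, gk κ (gens h E F a p) (gens h E F b q) ∈ G)
    (M : Fam ℂ fun L => (Fin (a L + 1) × Fin (a L + 1)) × (Fin (b L + 1) × Fin (b L + 1)))
    (hM : ∀ L, (M L).trace = 0) : M ∈ G := by
  obtain ⟨X, hX, hcx⟩ := gens_casimir (a := a) T h0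
  obtain ⟨Y, hY, hcy⟩ := gens_casimir (a := b) T h0
  have hne : ∀ d : ℕ, 1 ≤ d → (d : ℂ) * (d + 2) ≠ 0 := fun d hd =>
    mul_ne_zero (by exact_mod_cast (by omega : d ≠ 0)) (by exact_mod_cast (by omega : d + 2 ≠ 0))
  have hgen' : κ ∈ mult G (Submodule.span ℂ (Set.range (gens h E F a)))
      (Submodule.span ℂ (Set.range (gens h E F b))) := by
    intro x hx y hy
    refine (Submodule.mem_comap (f := (gk κ).flip y)).1 (Submodule.span_le.2 ?_ hx)
    rintro _ ⟨p, rfl⟩
    rw [SetLike.mem_coe, Submodule.mem_comap, LinearMap.flip_apply]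
    refine (Submodule.mem_comap (f := gk κ (gens h E F a p))).1 (Submodule.span_le.2 ?_ hy)
    rintro _ ⟨q, rfl⟩
    exact hgen p q
  refine traceless_fam_mem hG two_ne_zero κ hκ hgen' (gens_perfect T) (gens_perfect T)
    (gens_adjoin T) (gens_adjoin T) Finset.univ X (fun k _ => hX k) _ hcx (fun L => hne _ (ha L))
    Finset.univ Y (fun k _ => hY k) _ hcy (fun L => hne _ (hb L)) hsep (fun L => ?_)
    (fun L => inferInstance) M hM
  simp only [Fintype.card_prod, Fintype.card_fin]
  have := ha L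
  nlinarith

/-- The excursion rates separate the levels: `κ² = 1/(25 + 4 s (c_a + c_b))`. -/
theorem sep_of_rate {a b : ι → ℕ} (hinj : Function.Injective fun L => (a L, b L)) {s : ℝ}
    (hs : 0 ≤ s) (κ : ι → ℝ)
    (hκ : ∀ L, κ L ^ 2 = 1 / (25 + 4 * s * (a L * (a L + 2) + b L * (b L + 2) : ℝ))) :
    Function.Injective fun L => (((κ L : ℂ)) ^ 2 * ((b L : ℂ) * (b L + 2)),
      ((κ L : ℂ)) ^ 2 * ((a L : ℂ) * (a L + 2))) := by
  intro L L' e
  simp only [Prod.mk.injEq] at e
  obtain ⟨eb, ea⟩ := e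
  have eb' : κ L ^ 2 * ((b L : ℝ) * (b L + 2)) = κ L' ^ 2 * ((b L' : ℝ) * (b L' + 2)) := by
    exact_mod_cast eb
  have ea' : κ L ^ 2 * ((a L : ℝ) * (a L + 2)) = κ L' ^ 2 * ((a L' : ℝ) * (a L' + 2)) := by
    exact_mod_cast ea
  have hpos : ∀ M, 0 < 25 + 4 * s * ((a M : ℝ) * (a M + 2) + b M * (b M + 2)) := fun M => by
    positivity
  have hsum : (a L : ℝ) * (a L + 2) + b L * (b L + 2) = a L' * (a L' + 2) + b L' * (b L' + 2) := by
    have := congrArg₂ (· + ·) ea' eb'
    simp only [← mul_add, hκ] at this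
    have h1 := (hpos L).ne'
    have h2 := (hpos L').ne'
    field_simp at this
    linarith
  rw [hκ, hκ, hsum] at ea' eb'
  have hne : (1 : ℝ) / (25 + 4 * s * (a L' * (a L' + 2) + b L' * (b L' + 2))) ≠ 0 :=
    one_div_ne_zero (hpos L').ne'
  have key : ∀ x y : ℕ, (x : ℝ) * (x + 2) = y * (y + 2) → x = y := by
    intro x y hxy
    have : x * (x + 2) = y * (y + 2) := by exact_mod_cast hxy
    rcases lt_trichotomy x y with hlt | heq | hgt
    · nlinarith
    · exact heq
    · nlinarith
  exact hinj (Prod.ext (key _ _ (mul_left_cancel₀ hne ea')) (key _ _ (mul_left_cancel₀ hne eb')))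

/-- Descent: a real matrix in the complex span of a real space of matrices lies in that space. -/
theorem mem_of_mem_complex_span {α : Type*} (W : Submodule ℝ (α → ℝ)) {x : α → ℝ}
    (hx : (fun i => (x i : ℂ)) ∈ Submodule.span ℂ ((fun w : α → ℝ => fun i => (w i : ℂ)) '' W)) :
    x ∈ W := by
  suffices H : ∀ z ∈ Submodule.span ℂ ((fun w : α → ℝ => fun i => (w i : ℂ)) '' W),
      (fun i => (z i).re) ∈ W ∧ (fun i => (z i).im) ∈ W by
    simpa using (H _ hx).1
  intro z hz
  induction hz using Submodule.span_induction with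
  | mem z hz =>
    obtain ⟨w, hw, rfl⟩ := hz
    constructor
    · simpa using hw
    · convert W.zero_mem using 1
      funext i; simp
  | zero =>
    constructor <;> (convert W.zero_mem using 1; funext i; simp)
  | add u v _ _ hu hv =>
    exact ⟨W.add_mem hu.1 hv.1, W.add_mem hu.2 hv.2⟩
  | smul r u _ hu =>
    constructor
    · convert W.sub_mem (W.smul_mem r.re hu.1) (W.smul_mem r.im hu.2) using 1
      funext i; simp
    · convert W.add_mem (W.smul_mem r.re hu.2) (W.smul_mem r.im hu.1) using 1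
      funext i; simp

end Vale.Agent.P225.Alg
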