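import Vale.Agent.P225.Alg.Spin
import Vale.Agent.P225.Alg.SpinFam

/-!
P225: the spin matrices satisfy the hypotheses of the control lemma.
-/

namespace Vale.Agent.P225.Alg

open Matrix

/-- The diagonal of `-H`. -/
def spinTop (d : ℕ) : Fin (d + 1) → ℂ := fun p => (d : ℂ) - 2 * (p : ℕ)

theorem spin_triple (d : ℕ) : SpinTriple d (spinTop d) (spinF d) (spinE d) where
  inj p q h := spinH_injective d (by simp only [spinTop] at h; linear_combination -h)
  up i := spinF_ne_zero d _ _ (by simp)
  down i := spinE_ne_zero d _ _ (by simp)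
  top k := spinF_eq_zero d k 0 (by simp)
  lieEF := by
    rw [← neg_sub, spin_lie_EF, spinH, diagonal_neg]
    congr 1
    funext p
    simp [spinTop]
  lieHE := by
    have e : diagonal (spinTop d) = -spinH d := by
      rw [spinH, diagonal_neg]; congr 1; funext p; simp [spinTop]
    rw [e, neg_mul, mul_neg, sub_neg_eq_add, ← sub_eq_neg_add, ← neg_sub, spin_lie_HF, neg_neg]
  lieHF := by
    have e : diagonal (spinTop d) = -spinH d := by
      rw [spinH, diagonal_neg]; congr 1; funext p; simp [spinTop]
    rw [e, neg_mul, mul_neg, sub_neg_eq_add, ← sub_eq_neg_add, ← neg_sub, spin_lie_HE]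

theorem spinTop_zero (d : ℕ) : spinTop d 0 = d := by simp [spinTop]

end Vale.Agent.P225.Alg
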